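import Vale.Agent.P286.H374.GauE
import Vale.Agent.P286.H166.Wk1

/-!
# The Weil algebra as an instance
-/

namespace Vale.Agent.P286.H374.Gau

open TensorProduct H710 Matrix H697 H847

noncomputable section

set_option linter.unusedSectionVars false

variable (I : Type) [Fintype I] [DecidableEq I] (n : ℕ)

section Lift

variable {τ σ : Type} [Fintype τ] [DecidableEq τ] {E : Type} [Ring E] [Algebra ℂ E]

/-- The linear combinations of the `g a`. -/
def lc (g : τ → E) : (τ → ℂ) →ₗ[ℂ] E where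
  toFun v := ∑ a, v a • g a
  map_add' v w := by
    rw [← Finset.sum_add_distrib]
    exact Finset.sum_congr rfl fun a _ => add_smul _ _ _
  map_smul' c v := by
    rw [RingHom.id_apply, Finset.smul_sum]
    exact Finset.sum_congr rfl fun a _ => mul_smul _ _ _

theorem lc_apply (g : τ → E) (v : τ → ℂ) : lc g v = ∑ a, v a • g a := rfl

theorem lc_single (g : τ → E) (a : τ) : lc g (Pi.single a 1) = g a := by
  rw [lc_apply, Finset.sum_eq_single a]
  · rw [Pi.single_eq_same, one_smul]
  · intro b _ hb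
    rw [Pi.single_eq_of_ne hb, zero_smul]
  · intro h
    exact absurd (Finset.mem_univ a) h

theorem lc_sq (g : τ → E) (hg : ∀ a b, g a * g b + g b * g a = 0) (v : τ → ℂ) :
    lc g v * lc g v = 0 := by
  have h1 : lc g v * lc g v = ∑ a, ∑ b, (v a * v b) • (g a * g b) := by
    rw [lc_apply, Finset.sum_mul_sum]
    refine Finset.sum_congr rfl fun a _ => Finset.sum_congr rfl fun b _ => ?_
    rw [smul_mul_smul_comm]
  have h2 : lc g v * lc g v = -(lc g v * lc g v) := by
    rw [h1]
    conv_lhs => rw [Finset.sum_comm]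
    rw [← Finset.sum_neg_distrib]
    refine Finset.sum_congr rfl fun a _ => ?_
    rw [← Finset.sum_neg_distrib]
    refine Finset.sum_congr rfl fun b _ => ?_
    rw [← smul_neg, eq_neg_of_add_eq_zero_left (hg b a), mul_comm]
  have h3 : (2 : ℂ) • (lc g v * lc g v) = 0 := by
    rw [two_smul]
    nth_rewrite 1 [h2]
    exact neg_add_cancel _
  exact (smul_eq_zero.1 h3).resolve_left two_ne_zero

/-- The universal property. -/
theorem exists_lift (g : τ → E) (hg : ∀ a b, g a * g b + g b * g a = 0)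
    (f : MvPolynomial σ ℂ →ₐ[ℂ] E) (hf : ∀ p a, f p * g a = g a * f p) :
    ∃ u : ExteriorAlgebra ℂ (τ → ℂ) ⊗[ℂ] MvPolynomial σ ℂ →ₐ[ℂ] E,
      (∀ a, u (ExteriorAlgebra.ι ℂ (Pi.single a 1) ⊗ₜ 1) = g a) ∧ ∀ p, u (1 ⊗ₜ p) = f p := by
  let F : ExteriorAlgebra ℂ (τ → ℂ) →ₐ[ℂ] E := ExteriorAlgebra.lift ℂ ⟨lc g, lc_sq g hg⟩
  have hF : ∀ v, F (ExteriorAlgebra.ι ℂ v) = lc g v := fun v =>
    ExteriorAlgebra.lift_ι_apply ℂ _ _ v
  have hc : ∀ l p, Commute (F l) (f p) := by
    intro l p
    induction l using ExteriorAlgebra.induction with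
    | algebraMap c => rw [AlgHom.commutes]; exact Algebra.commutes c _
    | ι v =>
      rw [hF, lc_apply]
      refine Commute.sum_left _ _ _ fun a _ => ?_
      exact Commute.smul_left (hf p a).symm _
    | mul a b ha hb => rw [map_mul]; exact ha.mul_left hb
    | add a b ha hb => rw [map_add]; exact ha.add_left hb
  refine ⟨Algebra.TensorProduct.lift F f hc, fun a => ?_, fun p => ?_⟩
  · rw [Algebra.TensorProduct.lift_tmul, map_one, mul_one, hF, lc_single]
  · rw [Algebra.TensorProduct.lift_tmul, map_one, one_mul]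

end Lift

/-- The polynomials `y`. -/
def yp (t : Fin n) : MvPolynomial (I × I) ℂ := Wk.ep I (2 * ((t : ℕ) + 1))

/-- **The Weil algebra.** -/
def wq : WD I n (yp I n) (Wk I n) where
  s := Wk.sgA I n
  d := Wk.d I n
  ss := Wk.sgA_sgA
  sd := Wk.d_sg
  dm := Wk.d_mul
  th := Wk.th I n
  xi := Wk.xi I n
  P := Wk.inP I n
  sth := Wk.sgA_th
  sxi := Wk.sgA_xi
  sP := Wk.sgA_inP
  Pc := Wk.inP_comm
  dth := Wk.d_th
  dF i j := by
    refine (Wk.d_Fm i j).trans ?_
    rw [Matrix.sub_apply, Matrix.mul_apply, Matrix.mul_apply, ← Finset.sum_sub_distrib]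
    rfl
  dxi := Wk.d_xi
  thth i j k l := by
    change Wk.gn I n _ * Wk.gn I n _ + Wk.gn I n _ * Wk.gn I n _ = 0
    rw [Wk.gn_gn, neg_add_cancel]
  thxi i j k := by
    change Wk.gn I n _ * Wk.gn I n _ + Wk.gn I n _ * Wk.gn I n _ = 0
    rw [Wk.gn_gn, neg_add_cancel]
  xixi i j := by
    change Wk.gn I n _ * Wk.gn I n _ + Wk.gn I n _ * Wk.gn I n _ = 0
    rw [Wk.gn_gn, neg_add_cancel]
  gen p h1 h2 h3 := by
    rw [eq_top_iff]
    intro w _
    induction w using Wk.ind with
    | hp f => exact h3 f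
    | ho a x hx =>
      refine p.mul_mem ?_ (hx trivial)
      rcases a with ⟨i, j⟩ | t
      · exact h1 i j
      · exact h2 t
    | hs c x hx => exact p.smul_mem (hx trivial) c
    | ha x y hx hy => exact p.add_mem (hx trivial) (hy trivial)
  lift T x f h1 h2 h3 h4 h5 := by
    obtain ⟨u, hu, hu'⟩ := exists_lift (Sum.elim (fun p : I × I => T p.1 p.2) x)
      (by
        rintro (⟨i, j⟩ | t) (⟨k, l⟩ | t')
        · exact h1 i j k l
        · exact h2 i j t'
        · rw [add_comm]; exact h2 k l t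
        · exact h3 t t') f
      (by
        rintro p (⟨i, j⟩ | t)
        · exact h4 p i j
        · exact h5 p t)
    exact ⟨u, fun i j => hu (Sum.inl (i, j)), fun t => hu (Sum.inr t), hu'⟩

end

end Vale.Agent.P286.H374.Gau
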