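import Vale.Agent.P286.H374.GauE

/-!
# Degrees of the gauge transformations
-/

namespace Vale.Agent.P286.H374.Gau

open TensorProduct H710 Matrix H697 H847 SGD

noncomputable section

set_option linter.unusedSectionVars false

variable {I : Type} [Fintype I] [DecidableEq I] {n : ℕ} {y : Fin n → MvPolynomial (I × I) ℂ}
variable {W : Type} [Ring W] [Algebra ℂ W]

/-- The grading of the algebra. -/
structure WG (Q : WD I n y W) where
  gr : ℤ → Submodule ℂ W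
  dd : ∀ x, Q.d (Q.d x) = 0
  dgr : ∀ (m : ℤ) (x : W), x ∈ gr m → Q.d x ∈ gr (m + 1)
  sgr : ∀ (m : ℤ) (x : W), x ∈ gr m → Q.s x = (m.negOnePow : ℤ) • x
  one : 1 ∈ gr 0
  mul : ∀ (m p : ℤ) (x z : W), x ∈ gr m → z ∈ gr p → x * z ∈ gr (m + p)
  th : ∀ i j, Q.th i j ∈ gr 1
  F : ∀ i j, Q.P (MvPolynomial.X (i, j)) ∈ gr 2
  xi : ∀ i : Fin n, Q.xi i ∈ gr (4 * (i : ℤ) + 3)
  ind : ∀ (N : ℤ → Submodule ℂ W), 1 ∈ N 0 →
    (∀ i j (p : ℤ) v, v ∈ N p → Q.th i j * v ∈ N (p + 1)) →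
    (∀ i j (p : ℤ) v, v ∈ N p → Q.P (MvPolynomial.X (i, j)) * v ∈ N (p + 2)) →
    (∀ (i : Fin n) (p : ℤ) v, v ∈ N p → Q.xi i * v ∈ N (p + (4 * (i : ℤ) + 3))) →
    ∀ (m : ℤ) (w : W), w ∈ gr m → w ∈ N m

namespace WG

variable {Q : WD I n y W} (H : WG Q)

/-- The graded differential space with sign operator. -/
abbrev sgd : SGD where
  V := W
  d := Q.d
  dd := H.dd
  gr := H.gr
  dgr := H.dgr
  sg := Q.s.toLinearMap
  sg_sg := Q.ss
  sg_d := Q.sd
  sg_gr := H.sgr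

end WG

/-! ### Degrees -/

section Deg

variable {Q : WD I n y W} (H : WG Q)
variable {B : Type} [CommRing B] [Algebra ℂ B] (M : OmM B)

/-- The operator `T` raises the degree by `k`. -/
def Dg (T : Module.End ℂ (W ⊗[ℂ] M.M.V)) (k : ℤ) : Prop :=
  ∀ (q : ℤ) (z : W ⊗[ℂ] M.M.V), z ∈ tgr H.sgd.toGD M.M q → T z ∈ tgr H.sgd.toGD M.M (q + k)

variable {H M}

theorem Dg.zero (k : ℤ) : Dg H M (0 : Module.End ℂ (W ⊗[ℂ] M.M.V)) k := fun _ _ _ => zero_mem _

theorem Dg.add {T T' : Module.End ℂ (W ⊗[ℂ] M.M.V)} {k : ℤ} (h : Dg H M T k)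
    (h' : Dg H M T' k) : Dg H M (T + T') k := fun q z hz => add_mem (h q z hz) (h' q z hz)

theorem Dg.sum {J : Type} {t : Finset J} {T : J → Module.End ℂ (W ⊗[ℂ] M.M.V)} {k : ℤ}
    (h : ∀ j ∈ t, Dg H M (T j) k) : Dg H M (∑ j ∈ t, T j) k := by
  classical
  induction t using Finset.induction_on with
  | empty => exact Dg.zero k
  | insert a t ha ih =>
    rw [Finset.sum_insert ha]
    exact (h a (Finset.mem_insert_self _ _)).add
      (ih fun j hj => h j (Finset.mem_insert_of_mem hj))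

theorem Dg.mul {T T' : Module.End ℂ (W ⊗[ℂ] M.M.V)} {k k' l : ℤ} (h : Dg H M T k)
    (h' : Dg H M T' k') (hl : l = k + k') : Dg H M (T * T') l := fun q z hz => by
  have h1 := h _ _ (h' q z hz)
  rw [add_assoc, add_comm k', ← hl] at h1
  exact h1

theorem Dg.one : Dg H M (1 : Module.End ℂ (W ⊗[ℂ] M.M.V)) 0 := fun q z hz => by
  rw [add_zero]
  exact hz

theorem Dg.smul {T : Module.End ℂ (W ⊗[ℂ] M.M.V)} {k : ℤ} (c : ℂ) (h : Dg H M T k) :
    Dg H M (c • T) k := fun q z hz => Submodule.smul_mem _ c (h q z hz)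

theorem Dg.lw {w : W} {k : ℤ} (hw : w ∈ H.gr k) : Dg H M ((rM Q M).lw w) k :=
  fun q z hz => by
    refine map_tgr (E := H.sgd.toGD) (E' := H.sgd.toGD) (T := Gau.lw M.M.V w) ?_ hz
    intro i j x y hij hx hy
    exact tmul_mem (by rw [← hij]; ring) (H.mul _ _ _ _ hw hx) hy

theorem Dg.ro (b : B) : Dg H M ((rM Q M).ro b) 0 := fun q z hz => by
  refine map_tgr (E := H.sgd.toGD) (E' := H.sgd.toGD) (T := Gau.ro M.M.V W b) ?_ hz
  intro i j x y hij hx hy
  have h1 := M.smul_gr 0 j (algebraMap B (Om ℂ B) b) y (Om.alg_mem b) hy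
  rw [Nat.cast_zero, add_zero] at h1
  exact tmul_mem (by rw [← hij, add_zero]) hx h1

theorem Dg.r1 (b : B) : Dg H M ((rM Q M).r1 (Om.dd b)) 1 := fun q z hz => by
  refine map_tgr (E := H.sgd.toGD) (E' := H.sgd.toGD) (T := Gau.r1 Q.s M.M.V (Om.dd b)) ?_ hz
  intro i j x y hij hx hy
  have h1 := M.smul_gr 1 j (Om.dd b) y (Om.dd_mem b) hy
  exact tmul_mem (by rw [← hij, Nat.cast_one]; ring) (H.sgd.sg_mem hx) h1

theorem Dg.aT (U U' : Matrix I I B) (i j : I) : Dg H M ((rM Q M).aT U U' i j) 1 := by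
  rw [Rp.aT, Matrix.add_apply, Matrix.mul_apply, Matrix.mul_apply]
  refine Dg.add (Dg.sum fun k _ => ?_) (Dg.sum fun k _ => ?_)
  · rw [Matrix.mul_apply]
    refine Dg.mul (k := 1) (k' := 0) (Dg.sum fun l _ => ?_) (Dg.ro _) (by ring)
    exact Dg.mul (Dg.ro _) (Dg.lw (H.th l k)) (by ring)
  · exact Dg.mul (Dg.ro _) (Dg.r1 _) (by ring)

theorem Dg.aF (U U' : Matrix I I B) (i j : I) : Dg H M ((rM Q M).aF U U' i j) 2 := by
  rw [Rp.aF, Matrix.mul_apply]
  refine Dg.sum fun k _ => ?_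
  rw [Matrix.mul_apply]
  refine Dg.mul (k := 2) (k' := 0) (Dg.sum fun l _ => ?_) (Dg.ro _) (by ring)
  exact Dg.mul (Dg.ro _) (Dg.lw (H.F l k)) (by ring)

/-- **The gauge transformation preserves degrees.** -/
theorem Dg.aU (U U' : Matrix I I B) {m : ℤ} {w : W} (hw : w ∈ H.gr m) :
    Dg H M ((rM Q M).aU U U' w) m := by
  let P : ℤ → Submodule ℂ W := fun m =>
    { carrier := {w | Dg H M ((rM Q M).aU U U' w) m}
      add_mem' := fun {a b} ha hb => by
        change Dg H M ((rM Q M).aU U U' (a + b)) m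
        rw [map_add]
        exact Dg.add ha hb
      zero_mem' := by
        change Dg H M ((rM Q M).aU U U' 0) m
        rw [map_zero]
        exact Dg.zero m
      smul_mem' := fun c {a} ha => by
        change Dg H M ((rM Q M).aU U U' (c • a)) m
        rw [map_smul]
        exact Dg.smul c ha }
  refine H.ind P ?_ ?_ ?_ ?_ m w hw
  · change Dg H M ((rM Q M).aU U U' 1) 0
    rw [map_one]
    exact Dg.one
  · intro i j p v hv
    change Dg H M ((rM Q M).aU U U' (Q.th i j * v)) (p + 1)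
    rw [map_mul, Rp.aU_th]
    exact Dg.mul (Dg.aT U U' i j) hv (add_comm _ _)
  · intro i j p v hv
    change Dg H M ((rM Q M).aU U U' (Q.P (MvPolynomial.X (i, j)) * v)) (p + 2)
    rw [map_mul, Rp.aU_F]
    exact Dg.mul (Dg.aF U U' i j) hv (add_comm _ _)
  · intro i p v hv
    change Dg H M ((rM Q M).aU U U' (Q.xi i * v)) (p + (4 * (i : ℤ) + 3))
    rw [map_mul, Rp.aU_xi]
    exact Dg.mul (Dg.lw (H.xi i)) hv (add_comm _ _)

variable {B' : Type} [CommRing B'] [Algebra ℂ B'] {M' : OmM B'}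

/-- The transition maps preserve degrees. -/
theorem G_gr {t : M.M.V →ₗ[ℂ] M'.M.V} (ht : ∀ m x, x ∈ M.M.gr m → t x ∈ M'.M.gr m)
    (U U' : Matrix I I B') (m : ℤ) (z : W ⊗[ℂ] M.M.V) (hz : z ∈ tgr H.sgd.toGD M.M m) :
    G Q M M' t U U' z ∈ tgr H.sgd.toGD M'.M m := by
  refine map_tgr (E := H.sgd.toGD) (E' := H.sgd.toGD) (T := G Q M M' t U U') ?_ hz
  intro i j x y hij hx hy
  have h1 : ((1 : W) ⊗ₜ[ℂ] t y) ∈ tgr H.sgd.toGD M'.M j :=
    tmul_mem (E := H.sgd.toGD) (zero_add j) H.one (ht _ _ hy)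
  have h2 := Dg.aU (H := H) (M := M') U U' hx j _ h1
  rw [add_comm, hij] at h2
  exact h2

/-- **The transition map as a morphism of graded differential spaces.** -/
def GH (H : WG Q) (hy : ∀ i, Invt (y i)) (M : OmM B) (M' : OmM B') (t : GD.Hom M.M M'.M)
    (U U' : Matrix I I B') (h : U * U' = 1) (h' : U' * U = 1) :
    GD.Hom (tens H.sgd M.M) (tens H.sgd M'.M) where
  f := G Q M M' t.f U U'
  comm := G_comm hy t.comm h h'
  deg := G_gr t.deg U U'

end Deg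

end

end Vale.Agent.P286.H374.Gau
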