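import Vale.Agent.P286.H374.GauF
import Vale.Agent.P286.H374.GauG
import Vale.Agent.P286.H44.WkMon
import Vale.Agent.P286.H710.Lam
import Vale.Agent.P286.H987.Rpn

/-!
# The functor `Wk ⊗ F` on the test objects of the classifying stack
-/

namespace Vale.Agent.P286.H374.Gau

open CategoryTheory TensorProduct H710 Matrix H697 H847 SGD H987 H761 Gen

noncomputable section

set_option linter.unusedSectionVars false

variable {I : Type} [Fintype I] [DecidableEq I] {n : ℕ}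

/-! ### Invariance of the coefficients of the characteristic polynomial -/

theorem aeval_ep {C : Type} [CommRing C] [Algebra ℂ C] (N : Matrix I I C) (k : ℕ) :
    MvPolynomial.aeval (fun a : I × I => N a.1 a.2) (Wk.ep I k) =
      if k ≤ Fintype.card I then N.charpoly.coeff (Fintype.card I - k) else 0 := by
  rw [Wk.ep]
  split_ifs
  · have h3 : (Wk.Fp I).map ((MvPolynomial.aeval (fun a : I × I => N a.1 a.2) :
        MvPolynomial (I × I) ℂ →ₐ[ℂ] C) : MvPolynomial (I × I) ℂ →+* C) = N := by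
      ext i j
      change MvPolynomial.aeval (fun a : I × I => N a.1 a.2) (MvPolynomial.X (i, j)) = N i j
      exact MvPolynomial.aeval_X _ _
    have h2 := Matrix.charpoly_map (Wk.Fp I) ((MvPolynomial.aeval (fun a : I × I => N a.1 a.2) :
        MvPolynomial (I × I) ℂ →ₐ[ℂ] C) : MvPolynomial (I × I) ℂ →+* C)
    rw [h3] at h2
    rw [h2, Polynomial.coeff_map]
    rfl
  · rw [map_zero]

theorem invt_ep (k : ℕ) : Invt (Wk.ep I k) := by
  intro C _ _ U U' M h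
  have h2 : (U' * M * U).charpoly = M.charpoly := by
    rw [Matrix.charpoly_mul_comm, ← Matrix.mul_assoc, h, Matrix.one_mul]
  rw [aeval_ep, aeval_ep, h2]

theorem invt_yp (t : Fin n) : Invt (yp I n t) := invt_ep _

/-! ### The grading -/

variable (I n)

/-- The grading of the Weil algebra. -/
def wg : WG (wq I n) where
  gr := Wk.gr I n
  dd := Wk.d_d
  dgr _ _ := Wk.d_gr
  sgr m _ := Wk.sgA_gr m
  one := Wk.one_gr
  mul _ _ _ _ := Wk.mul_gr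
  th := Wk.th_gr
  F := Wk.Fm_gr
  xi := Wk.xi_gr
  ind N h1 h2 h3 h4 m w hw := by
    rw [H44.WkM.gr_eq] at hw
    refine H44.map_ms (S := LinearMap.id) (Q := N m) ?_ hw
    intro j _ v hv
    change v ∈ N m
    clear hw
    induction hv with
    | one => exact h1
    | th a m k v _ ih => exact h2 a.1 a.2 m v (ih (Nat.zero_le _))
    | cu a m k v _ ih => exact h3 a.1 a.2 m v (ih (Nat.zero_le _))
    | xi i m k v _ ih =>
      have h5 := h4 i m v (ih (Nat.zero_le _))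
      have h6 : m + ((H44.WkM.w n i : ℕ) : ℤ) = m + (4 * (i : ℤ) + 3) := by
        rw [H44.WkM.w]; push_cast; ring
      rw [h6]
      exact h5

theorem sgd_eq : (wg I n).sgd = WK I n := rfl

variable {I n}

/-! ### The functor -/

section Fun

variable {N : ℕ} {Γ : Gps N} (R : Rpn Γ I) (n)

/-- The transition map of `Wk ⊗ F` along a morphism. -/
def gm1 {X Y : Gen.BGObj Γ} (φ : X ⟶ Y) (M : OmM X.A.R) (M' : OmM Y.A.R) (t : GD.Hom M.M M'.M) :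
    GD.Hom (tens (WK I n) M.M) (tens (WK I n) M'.M) :=
  GH (wg I n) invt_yp M M' t (R.r (Gen.BGHom.h φ)) (R.r (Gen.BGHom.h φ)⁻¹) (R.mul_inv _)
    (R.inv_mul _)

variable {n}

theorem gm1_f {X Y : Gen.BGObj Γ} (φ : X ⟶ Y) (M : OmM X.A.R) (M' : OmM Y.A.R)
    (t : GD.Hom M.M M'.M) : (gm1 n R φ M M' t).f =
      G (wq I n) M M' t.f (R.r (Gen.BGHom.h φ)) (R.r (Gen.BGHom.h φ)⁻¹) := rfl

theorem gm1_one_tmul {X Y : Gen.BGObj Γ} (φ : X ⟶ Y) (M : OmM X.A.R) (M' : OmM Y.A.R)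
    (t : GD.Hom M.M M'.M) (x : M.M.V) :
    (gm1 n R φ M M' t).f (1 ⊗ₜ[ℂ] x) = (1 : Wk I n) ⊗ₜ[ℂ] t.f x := G_one_tmul _

theorem gm1_id {X : Gen.BGObj Γ} (M : OmM X.A.R) (t : GD.Hom M.M M.M) (ht : ∀ x, t.f x = x)
    (z : Wk I n ⊗[ℂ] M.M.V) : (gm1 n R (𝟙 X) M M t).f z = z := by
  have h1 : t.f = LinearMap.id := LinearMap.ext ht
  have h2 : R.r (Gen.BGHom.h (𝟙 X)) = 1 := map_one R.r
  have h3 : R.r (Gen.BGHom.h (𝟙 X))⁻¹ = 1 := by
    have : (Gen.BGHom.h (𝟙 X))⁻¹ = 1 := inv_one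
    rw [this, map_one]
  rw [gm1_f, h1, h2, h3]
  exact G_id z

theorem gm1_comp {X Y Z : Gen.BGObj Γ} (φ : X ⟶ Y) (ψ : Y ⟶ Z) (M : OmM X.A.R) (M' : OmM Y.A.R)
    (M'' : OmM Z.A.R) (t : GD.Hom M.M M'.M) (t' : GD.Hom M'.M M''.M) (t'' : GD.Hom M.M M''.M)
    (ht' : ∀ (w : Om ℂ Y.A.R) (x : M'.M.V), t'.f (w • x) = Om.pb (Gen.BGHom.f ψ) w • t'.f x)
    (h : ∀ x, t''.f x = t'.f (t.f x)) (z : Wk I n ⊗[ℂ] M.M.V) :
    (gm1 n R (φ ≫ ψ) M M'' t'').f z = (gm1 n R ψ M' M'' t').f ((gm1 n R φ M M' t).f z) := by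
  have h1 : t''.f = t'.f.comp t.f := LinearMap.ext h
  have h0 : Gen.BGHom.h (φ ≫ ψ) = Gen.BGHom.h ψ * Gen.gm (Gen.BGHom.f ψ) (Gen.BGHom.h φ) := rfl
  have h2 : R.r (Gen.BGHom.h (φ ≫ ψ)) =
      R.r (Gen.BGHom.h ψ) * (R.r (Gen.BGHom.h φ)).map (Gen.BGHom.f ψ) := by
    rw [h0, map_mul, R.nat]
  have h3 : R.r (Gen.BGHom.h (φ ≫ ψ))⁻¹ =
      (R.r (Gen.BGHom.h φ)⁻¹).map (Gen.BGHom.f ψ) * R.r (Gen.BGHom.h ψ)⁻¹ := by
    rw [h0, _root_.mul_inv_rev, map_mul, ← gm_inv, R.nat]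
  rw [gm1_f, gm1_f, gm1_f, h1, h2, h3]
  exact (G_comp ht' (R.inv_mul _) z).symm

/-- **The functor `Wk ⊗ F`.** -/
def wkF (n : ℕ) (F : OmF (BGT Γ)) : GF (Gen.BGObj Γ) where
  obj X := tens (WK I n) (fib F X).M
  map φ := gm1 n R φ _ _ (fibt F φ)
  map_id X z := gm1_id R _ _ (fun x => F.t_id X x) z
  map_comp φ ψ z := gm1_comp R φ ψ _ _ _ _ _ _ (fibt_smul F ψ) (fun x => F.t_comp φ ψ x) z

end Fun

variable (I n)

end

end Vale.Agent.P286.H374.Gau
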