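import Vale.Agent.P286.H374.GauD
import Vale.Agent.P286.H697.OmF

/-!
# The transition maps of `W ⊗ F`, for a family `F` of modules over the differential forms
-/

namespace Vale.Agent.P286.H374.Gau

open TensorProduct H710 Matrix H697 H847

noncomputable section

set_option linter.unusedSectionVars false

variable {I : Type} [Fintype I] [DecidableEq I] {n : ℕ} {y : Fin n → MvPolynomial (I × I) ℂ}
variable {W : Type} [Ring W] [Algebra ℂ W] (Q : WD I n y W)
variable {B : Type} [CommRing B] [Algebra ℂ B] {B' : Type} [CommRing B'] [Algebra ℂ B']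
variable {B'' : Type} [CommRing B''] [Algebra ℂ B'']

/-- The operators on `W ⊗ M`. -/
abbrev rM (M : OmM B) : Rp Q B (Module.End ℂ (W ⊗[ℂ] M.M.V)) := rp Q B M.M.d M.leib

/-- The gauge transition map `W ⊗ M → W ⊗ M'`. -/
def G (M : OmM B) (M' : OmM B') (t : M.M.V →ₗ[ℂ] M'.M.V) (U U' : Matrix I I B') :
    W ⊗[ℂ] M.M.V →ₗ[ℂ] W ⊗[ℂ] M'.M.V :=
  gm ((rM Q M').aU U U') t

variable {Q}
variable {M : OmM B} {M' : OmM B'} {M'' : OmM B''} {t : M.M.V →ₗ[ℂ] M'.M.V}
  {t' : M'.M.V →ₗ[ℂ] M''.M.V} {U U' : Matrix I I B'}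

theorem G_tmul (w : W) (x : M.M.V) :
    G Q M M' t U U' (w ⊗ₜ x) = (rM Q M').aU U U' w (1 ⊗ₜ t x) := rfl

theorem G_one_tmul (x : M.M.V) : G Q M M' t U U' (1 ⊗ₜ x) = 1 ⊗ₜ t x := gm_one_tmul _ _ _

theorem G_lw (w : W) : Rel (G Q M M' t U U') (lw M.M.V w) ((rM Q M').aU U U' w) :=
  gm_lw _ _ w

/-- `G` and the multiplications by `ξ`. -/
theorem G_xi (i : Fin n) (z : W ⊗[ℂ] M.M.V) :
    G Q M M' t U U' (lw M.M.V (Q.xi i) z) = lw M'.M.V (Q.xi i) (G Q M M' t U U' z) := by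
  have h := G_lw (Q := Q) (t := t) (U := U) (U' := U') (Q.xi i) z
  rw [Rp.aU_xi] at h
  exact h

/-- `G` and the multiplications by the invariant polynomials in `F`. -/
theorem G_inv (h : U * U' = 1) {p : MvPolynomial (I × I) ℂ} (hp : Invt p) (z : W ⊗[ℂ] M.M.V) :
    G Q M M' t U U' (lw M.M.V (Q.P p) z) = lw M'.M.V (Q.P p) (G Q M M' t U U' z) := by
  have h2 := G_lw (Q := Q) (t := t) (U := U) (U' := U') (Q.P p) z
  rw [(rM Q M').aU_inv h hp] at h2
  exact h2

/-- `G` is semilinear over the functions. -/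
theorem G_ro {f : B →ₐ[ℂ] B'} (ht : ∀ (w : Om ℂ B) (x : M.M.V), t (w • x) = Om.pb f w • t x)
    (b : B) : Rel (G Q M M' t U U') (ro M.M.V W b) (ro M'.M.V W (f b)) := fun z => by
  induction z using TensorProduct.induction_on with
  | zero => rw [map_zero, map_zero, map_zero]
  | tmul w x =>
    have h1 := congrArg (fun T : Module.End ℂ (W ⊗[ℂ] M'.M.V) => T (1 ⊗ₜ t x))
      ((rM Q M').aU_ro U U' w (f b))
    rw [ro_tmul, G_tmul, G_tmul, ht, Om.pb_alg]
    exact h1
  | add a b ha hb => rw [map_add, map_add, map_add, map_add, ha, hb]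

/-- `G` is semilinear over the one-forms. -/
theorem G_r1 {f : B →ₐ[ℂ] B'} (ht : ∀ (w : Om ℂ B) (x : M.M.V), t (w • x) = Om.pb f w • t x)
    (b : B) : Rel (G Q M M' t U U') (r1 Q.s M.M.V (Om.dd b)) (r1 Q.s M'.M.V (Om.dd (f b))) :=
  fun z => by
    induction z using TensorProduct.induction_on with
    | zero => rw [map_zero, map_zero, map_zero]
    | tmul w x =>
      have h1 := congrArg (fun T : Module.End ℂ (W ⊗[ℂ] M'.M.V) => T (1 ⊗ₜ t x))
        ((rM Q M').aU_r1 U U' w (KaehlerDifferential.D ℂ B' (f b)))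
      have h2 : r1 Q.s M'.M.V (Om.dd (f b) : Om ℂ B') ((1 : W) ⊗ₜ[ℂ] t x) =
          (1 : W) ⊗ₜ ((Om.dd (f b) : Om ℂ B') • t x) := by
        rw [r1_tmul, map_one]
      rw [r1_tmul, G_tmul, G_tmul, ht, Om.pb_dd, ← h2]
      exact h1.symm
    | add a b ha hb => rw [map_add, map_add, map_add, map_add, ha, hb]

/-- **`G` is a morphism of complexes.** -/
theorem G_comm (hy : ∀ i, Invt (y i)) (hd : ∀ x, t (M.M.d x) = M'.M.d (t x)) (h : U * U' = 1)
    (h' : U' * U = 1) (z : W ⊗[ℂ] M.M.V) :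
    G Q M M' t U U' (dt Q.s Q.d M.M.d z) = dt Q.s Q.d M'.M.d (G Q M M' t U U' z) := by
  induction z using TensorProduct.induction_on with
  | zero => rw [map_zero, map_zero, map_zero]
  | tmul w x =>
    have h1 := congrArg (fun T : Module.End ℂ (W ⊗[ℂ] M'.M.V) => T (1 ⊗ₜ t x))
      ((rM Q M').aU_D hy h h' w)
    have h2 : dt Q.s Q.d M'.M.d ((1 : W) ⊗ₜ[ℂ] t x) = (1 : W) ⊗ₜ t (M.M.d x) := by
      have h3 : Q.s 1 = 1 := map_one Q.s
      rw [dt_tmul, Q.d_one, zero_tmul, zero_add, h3, hd]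
    rw [dt_tmul, map_add, G_tmul, G_tmul, G_tmul, ← h2]
    exact h1.symm
  | add a b ha hb => rw [map_add, map_add, map_add, map_add, ha, hb]

/-- **The transition maps are strictly functorial.** -/
theorem G_comp {f : B' →ₐ[ℂ] B''}
    (ht : ∀ (w : Om ℂ B') (x : M'.M.V), t' (w • x) = Om.pb f w • t' x)
    {V V' : Matrix I I B''} (hV : V' * V = 1) (z : W ⊗[ℂ] M.M.V) :
    G Q M' M'' t' V V' (G Q M M' t U U' z) =
      G Q M M'' (t'.comp t) (V * U.map f) (U'.map f * V') z := by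
  induction z using TensorProduct.induction_on with
  | zero => rw [map_zero, map_zero, map_zero]
  | tmul w x =>
    rw [G_tmul, G_tmul]
    rw [rel_aU (rM Q M') (rM Q M'') f U U' hV (G_ro ht) (G_r1 ht) G_lw w]
    rw [G_one_tmul]
    rfl
  | add a b ha hb => rw [map_add, map_add, map_add, ha, hb]

/-- The identity. -/
theorem G_id (z : W ⊗[ℂ] M.M.V) : G Q M M LinearMap.id 1 1 z = z := by
  induction z using TensorProduct.induction_on with
  | zero => rw [map_zero]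
  | tmul w x =>
    rw [G_tmul, Rp.aU_one]
    change (w * 1) ⊗ₜ x = _
    rw [mul_one]
  | add a b ha hb => rw [map_add, ha, hb]

end

end Vale.Agent.P286.H374.Gau
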