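import Mathlib

/-!
# Polynomial functions on the classical Lie algebras `sp` and `so`

A datum `S : Dat I` is a finite index set with an involution `p` (with at most one fixed point) and
signs `e`; the Lie algebra `g` consists of the matrices with `X i j = - e i * e j * X (p j) (p i)`.
-/

namespace Vale.Agent.P286.H374

open MvPolynomial Matrix

noncomputable section

set_option linter.unusedSectionVars false

/-- An involution and signs: the form `∑ e i * x i * y (p i)`. -/
structure Dat (I : Type) where
  p : I → I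
  pp : ∀ i, p (p i) = i
  e : I → ℂ
  ee : ∀ i, e i * e i = 1
  k : ℂ
  ek : ∀ i, e (p i) = k * e i
  fx : ∀ i j, p i = i → p j = j → i = j

variable {I : Type} [Fintype I] [DecidableEq I]

/-- Polynomial functions on the space of matrices. -/
abbrev PM (I : Type) : Type := MvPolynomial (I × I) ℂ

/-- The diagonal matrix, as a point. -/
def dg (x : I → ℂ) : I × I → ℂ := fun a => if a.1 = a.2 then x a.1 else 0

/-- The matrix, as a point. -/
def pt (X : Matrix I I ℂ) : I × I → ℂ := fun a => X a.1 a.2

/-- The derivation `f ↦ (X ↦ df_X([A, X]))`. -/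
def ad (A : Matrix I I ℂ) : Derivation ℂ (PM I) (PM I) :=
  mkDerivation ℂ fun a => ∑ k : I, (C (A a.1 k) * X (k, a.2) - C (A k a.2) * X (a.1, k))

theorem ad_X (A : Matrix I I ℂ) (a : I × I) :
    ad A (X a) = ∑ k : I, (C (A a.1 k) * X (k, a.2) - C (A k a.2) * X (a.1, k)) :=
  mkDerivation_X _ _ _

namespace Dat

variable (S : Dat I)

/-- The Lie algebra. -/
def Mem (X : Matrix I I ℂ) : Prop := ∀ i j, X i j = - (S.e i * S.e j) * X (S.p j) (S.p i)

/-- The composition with the projection of the space of matrices onto the Lie algebra. -/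
def proj : PM I →ₐ[ℂ] PM I :=
  aeval fun a => C (1 / 2) * (X a - C (S.e a.1 * S.e a.2) * X (S.p a.2, S.p a.1))

theorem proj_X (a : I × I) : S.proj (X a) =
    C (1 / 2) * (X a - C (S.e a.1 * S.e a.2) * X (S.p a.2, S.p a.1)) := aeval_X _ _

theorem kk [Nonempty I] : S.k * S.k = 1 := by
  obtain ⟨i⟩ := ‹Nonempty I›
  have h1 := S.ek (S.p i)
  rw [S.pp, S.ek i] at h1
  have h2 := S.ee i
  have h3 : S.k * S.k * (S.e i * S.e i) = S.e i * S.e i := by
    linear_combination (-(S.e i)) * h1
  rwa [h2, mul_one] at h3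

theorem kk' (i : I) : S.k * S.k = 1 := by
  have : Nonempty I := ⟨i⟩
  exact S.kk

theorem e_pp (i j : I) : S.e (S.p i) * S.e (S.p j) = S.e i * S.e j := by
  rw [S.ek, S.ek]
  linear_combination (S.e i * S.e j) * S.kk' i

theorem e_sq (i j : I) : (S.e i * S.e j) * (S.e i * S.e j) = 1 := by
  linear_combination (S.e j * S.e j) * S.ee i + S.ee j

/-- The symplectic Lie algebra. -/
def sp (n : ℕ) : Dat (Fin n ⊕ Fin n) where
  p := Sum.swap
  pp i := Sum.swap_swap i
  e := Sum.elim (fun _ => 1) (fun _ => -1)
  ee i := by cases i <;> simp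
  k := -1
  ek i := by cases i <;> simp
  fx i j hi hj := by cases i <;> simp at hi

/-- The odd orthogonal Lie algebra. -/
def so (n : ℕ) : Dat ((Fin n ⊕ Fin n) ⊕ Unit) where
  p := Sum.map Sum.swap id
  pp i := by rcases i with (i | i) | i <;> rfl
  e _ := 1
  ee _ := by simp
  k := 1
  ek _ := by simp
  fx i j hi hj := by
    rcases i with (i | i) | i <;> rcases j with (j | j) | j <;> simp at hi hj ⊢

end Dat

end

end Vale.Agent.P286.H374
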