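import Vale.Agent.P286.H374.ChevDefs

/-!
# The restriction of invariant polynomials to the diagonal matrices is injective
-/

namespace Vale.Agent.P286.H374

open MvPolynomial Matrix

noncomputable section

set_option linter.unusedSectionVars false

variable {I : Type} [Fintype I] [DecidableEq I]

/-- The off-diagonal variables have weight one. -/
def wo (a : I × I) : ℕ := if a.1 = a.2 then 0 else 1

/-- All monomials of `f` have off-diagonal degree at least `n`. -/
def Fl (n : ℕ) (f : PM I) : Prop := ∀ d, Finsupp.weight wo d < n → coeff d f = 0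

theorem Fl.zero (n : ℕ) : Fl n (0 : PM I) := fun d _ => coeff_zero d

theorem Fl.add {n : ℕ} {f g : PM I} (hf : Fl n f) (hg : Fl n g) : Fl n (f + g) := fun d hd => by
  rw [coeff_add, hf d hd, hg d hd, add_zero]

theorem Fl.neg {n : ℕ} {f : PM I} (hf : Fl n f) : Fl n (-f) := fun d hd => by
  rw [coeff_neg, hf d hd, neg_zero]

theorem Fl.sub {n : ℕ} {f g : PM I} (hf : Fl n f) (hg : Fl n g) : Fl n (f - g) := fun d hd => by
  rw [coeff_sub, hf d hd, hg d hd, sub_zero]

theorem Fl.sum {n : ℕ} {J : Type} {s : Finset J} {f : J → PM I} (hf : ∀ j ∈ s, Fl n (f j)) :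
    Fl n (∑ j ∈ s, f j) := fun d hd => by
  rw [coeff_sum]
  exact Finset.sum_eq_zero fun j hj => hf j hj d hd

theorem Fl.C_mul {n : ℕ} {f : PM I} (hf : Fl n f) (c : ℂ) : Fl n (C c * f) := fun d hd => by
  rw [coeff_C_mul, hf d hd, mul_zero]

theorem Fl.mono {n m : ℕ} {f : PM I} (hf : Fl n f) (h : m ≤ n) : Fl m f := fun d hd =>
  hf d (lt_of_lt_of_le hd h)

theorem weight_sub_single {d : I × I →₀ ℕ} {a : I × I} (h : a ∈ d.support) :
    Finsupp.weight wo (d - Finsupp.single a 1) + wo a = Finsupp.weight wo d := by
  have h1 : d - Finsupp.single a 1 + Finsupp.single a 1 = d := by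
    apply tsub_add_cancel_of_le
    rw [Finsupp.single_le_iff]
    exact Nat.one_le_iff_ne_zero.2 (Finsupp.mem_support_iff.1 h)
  conv_rhs => rw [← h1, map_add, Finsupp.weight_single, one_smul]

theorem Fl.X_mul {n : ℕ} {f : PM I} (hf : Fl n f) (a : I × I) : Fl (n + wo a) (X a * f) := by
  intro d hd
  rw [coeff_X_mul']
  split_ifs with h
  · apply hf
    have := weight_sub_single h
    omega
  · rfl

theorem Fl.pderiv {n : ℕ} {f : PM I} (hf : Fl n f) (a : I × I) :
    Fl (n - wo a) (MvPolynomial.pderiv a f) := by
  intro d hd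
  rw [coeff_pderiv, hf, zero_mul]
  rw [map_add, Finsupp.weight_single, one_smul]
  omega

theorem Fl.X_mul_pderiv {n : ℕ} {f : PM I} (hf : Fl n f) (a b : I × I) (h : wo b ≤ wo a) :
    Fl n (X a * MvPolynomial.pderiv b f) := by
  apply ((hf.pderiv b).X_mul a).mono
  omega

/-- A nonzero element of weight zero is not a zero divisor modulo the filtration. -/
theorem Fl.of_mul {l h : PM I} (hl : IsWeightedHomogeneous wo l 0) (hl0 : l ≠ 0) {n : ℕ}
    (hn : Fl n (l * h)) : Fl n h := by
  have key : ∀ m, m ≤ n → Fl m h := by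
    intro m
    induction m with
    | zero => exact fun _ d hd => absurd hd (Nat.not_lt_zero _)
    | succ m ih =>
      intro hm
      have h0 := ih (by omega)
      set g := weightedHomogeneousComponent wo m h with hg
      have h1 : Fl (m + 1) (h - g) := by
        intro d hd
        rw [coeff_sub, hg, coeff_weightedHomogeneousComponent]
        split_ifs with h2
        · rw [sub_self]
        · rw [h0 d (by omega), sub_zero]
      have h2 : Fl (m + 1) (l * (h - g)) := by
        intro d hd
        rw [coeff_mul]
        apply Finset.sum_eq_zero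
        rintro ⟨x, y⟩ hxy
        replace hxy : x + y = d := Finset.HasAntidiagonal.mem_antidiagonal.1 hxy
        by_cases hx : Finsupp.weight wo x = 0
        · have h3 : Finsupp.weight wo y < m + 1 := by
            have := congrArg (Finsupp.weight (wo : I × I → ℕ)) hxy
            rw [map_add] at this
            omega
          rw [h1 y h3, mul_zero]
        · rw [hl.coeff_eq_zero x hx, zero_mul]
      have h3 : Fl (m + 1) (l * g) := by
        have : l * g = l * h - l * (h - g) := by ring
        rw [this]
        exact (hn.mono hm).sub h2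
      have h4 : IsWeightedHomogeneous wo (l * g) (0 + m) :=
        hl.mul (weightedHomogeneousComponent_isWeightedHomogeneous m h)
      rw [zero_add] at h4
      have h5 : l * g = 0 := by
        ext d
        rw [coeff_zero]
        by_cases hd : Finsupp.weight wo d = m
        · exact h3 d (by omega)
        · exact h4.coeff_eq_zero d hd
      have h6 : g = 0 := (mul_eq_zero.1 h5).resolve_left hl0
      rw [h6, sub_zero] at h1
      exact h1
  exact key n le_rfl

/-- The Euler argument. -/
theorem Fl.succ {n : ℕ} {f : PM I} (hn : 1 ≤ n) (hf : Fl n f)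
    (hd : ∀ a : I × I, a.1 ≠ a.2 → Fl n (MvPolynomial.pderiv a f)) : Fl (n + 1) f := by
  intro d h
  rcases Nat.lt_or_ge (Finsupp.weight wo d) n with h1 | h1
  · exact hf d h1
  · have h2 : Finsupp.weight wo d ≠ 0 := by omega
    have h3 : ∃ a ∈ d.support, wo a ≠ 0 := by
      by_contra hc
      push Not at hc
      apply h2
      rw [Finsupp.weight_apply, Finsupp.sum]
      exact Finset.sum_eq_zero fun a ha => by rw [hc a ha, smul_zero]
    obtain ⟨a, ha, hwa⟩ := h3
    have hne : a.1 ≠ a.2 := fun he => hwa (if_pos he)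
    have h4 := weight_sub_single ha
    have h5 : wo a = 1 := if_neg hne
    have h6 := hd a hne (d - Finsupp.single a 1) (by omega)
    rw [coeff_pderiv] at h6
    have h7 : d - Finsupp.single a 1 + Finsupp.single a 1 = d := by
      apply tsub_add_cancel_of_le
      rw [Finsupp.single_le_iff]
      exact Nat.one_le_iff_ne_zero.2 (Finsupp.mem_support_iff.1 ha)
    rw [h7] at h6
    rcases mul_eq_zero.1 h6 with h8 | h8
    · exact h8
    · exfalso
      exact Nat.cast_add_one_ne_zero _ h8

/-- A polynomial vanishing on the diagonal matrices has no monomials of weight zero. -/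
theorem Fl.one_of_eval {f : PM I} (hf : ∀ x : I → ℂ, eval (dg x) f = 0) : Fl 1 f := by
  set g := weightedHomogeneousComponent (wo : I × I → ℕ) 0 f with hg
  have hgh : IsWeightedHomogeneous wo g 0 := weightedHomogeneousComponent_isWeightedHomogeneous 0 f
  have h1 : Fl 1 (f - g) := by
    intro d hd
    rw [coeff_sub, hg, coeff_weightedHomogeneousComponent, if_pos (by omega), sub_self]
  have hmon : ∀ (d : I × I →₀ ℕ), Finsupp.weight wo d ≠ 0 → ∀ x : I → ℂ,
      (d.prod fun a n => dg x a ^ n) = 0 := by
    intro d hd x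
    have h3 : ∃ a ∈ d.support, wo a ≠ 0 := by
      by_contra hc
      push Not at hc
      apply hd
      rw [Finsupp.weight_apply, Finsupp.sum]
      exact Finset.sum_eq_zero fun a ha => by rw [hc a ha, smul_zero]
    obtain ⟨a, ha, hwa⟩ := h3
    apply Finset.prod_eq_zero ha
    have hne : a.1 ≠ a.2 := fun he => hwa (if_pos he)
    change dg x a ^ (d a) = 0
    rw [dg, if_neg hne]
    exact zero_pow (Finsupp.mem_support_iff.1 ha)
  have h2 : ∀ x : I → ℂ, eval (dg x) (f - g) = 0 := by
    intro x
    rw [eval_eq]
    apply Finset.sum_eq_zero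
    intro d hd
    have hd' : Finsupp.weight wo d ≠ 0 := by
      intro h0
      exact (mem_support_iff.1 hd) (h1 d (by omega))
    have := hmon d hd' x
    rw [Finsupp.prod] at this
    rw [this, mul_zero]
  have h3 : ∀ x : I → ℂ, eval (dg x) g = 0 := by
    intro x
    have := h2 x
    rw [map_sub, hf x, zero_sub, neg_eq_zero] at this
    exact this
  have h4 : g = 0 := by
    apply MvPolynomial.funext
    intro y
    rw [map_zero, ← h3 (fun i => y (i, i)), eval_eq, eval_eq]
    apply Finset.sum_congr rfl
    intro d hd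
    congr 1
    apply Finset.prod_congr rfl
    intro a ha
    have hwd : Finsupp.weight wo d = 0 := by
      by_contra hc
      exact (mem_support_iff.1 hd) (hgh.coeff_eq_zero d hc)
    have hwa : wo a = 0 := by
      by_contra hc
      rw [Finsupp.weight_apply, Finsupp.sum] at hwd
      have := Finset.sum_eq_zero_iff.1 hwd a ha
      rw [smul_eq_mul, mul_eq_zero] at this
      exact this.elim (Finsupp.mem_support_iff.1 ha) hc
    have hea : a.1 = a.2 := by
      by_contra hc
      rw [wo, if_neg hc] at hwa
      exact one_ne_zero hwa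
    rw [dg, if_pos hea]
    congr 2
    exact Prod.ext rfl hea.symm
  rw [h4, sub_zero] at h1
  exact h1

theorem eq_zero_of_Fl {f : PM I} (hf : ∀ n, Fl n f) : f = 0 := by
  ext d
  rw [coeff_zero]
  exact hf (Finsupp.weight wo d + 1) d (Nat.lt_succ_self _)

theorem der_sum {J : Type} (s : Finset J) (D : J → Derivation ℂ (PM I) (PM I)) (f : PM I) :
    (∑ j ∈ s, D j) f = ∑ j ∈ s, D j f := by
  classical
  induction s using Finset.induction_on with
  | empty => rw [Finset.sum_empty, Finset.sum_empty, Derivation.zero_apply]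
  | insert a s ha ih => rw [Finset.sum_insert ha, Finset.sum_insert ha, Derivation.add_apply, ih]

/-- The derivation `ad A` is a combination of the partial derivatives. -/
theorem ad_eq (A : Matrix I I ℂ) (f : PM I) :
    ad A f = ∑ a : I × I, ad A (X a) * pderiv a f := by
  have h : ad A = ∑ a : I × I, ad A (X a) • (pderiv a : Derivation ℂ (PM I) (PM I)) := by
    apply derivation_ext
    intro b
    rw [der_sum, Finset.sum_eq_single b]
    · rw [Derivation.smul_apply, pderiv_X_self, smul_eq_mul, mul_one]
    · intro a _ hab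
      rw [Derivation.smul_apply, pderiv_X_of_ne hab.symm, smul_zero]
    · intro hb
      exact absurd (Finset.mem_univ b) hb
  have h2 : ad A f = (∑ a : I × I, ad A (X a) • (pderiv a : Derivation ℂ (PM I) (PM I))) f :=
    congrArg (fun D : Derivation ℂ (PM I) (PM I) => D f) h
  rw [h2, der_sum]
  exact Finset.sum_congr rfl fun a _ => rfl

theorem ad_add (A B : Matrix I I ℂ) (f : PM I) : ad (A + B) f = ad A f + ad B f := by
  have h : ad (A + B) = ad A + ad B := by
    apply derivation_ext
    intro a
    rw [Derivation.add_apply, ad_X, ad_X, ad_X, ← Finset.sum_add_distrib]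
    apply Finset.sum_congr rfl
    intro k _
    rw [Matrix.add_apply, Matrix.add_apply, C_add, C_add]
    ring
  rw [h, Derivation.add_apply]

theorem ad_smul (c : ℂ) (A : Matrix I I ℂ) (f : PM I) : ad (c • A) f = C c * ad A f := by
  have h : ad (c • A) = c • ad A := by
    apply derivation_ext
    intro a
    rw [Derivation.smul_apply, ad_X, ad_X, smul_eq_C_mul, Finset.mul_sum]
    apply Finset.sum_congr rfl
    intro k _
    rw [Matrix.smul_apply, Matrix.smul_apply, smul_eq_mul, smul_eq_mul, C_mul, C_mul]
    ring
  rw [h, Derivation.smul_apply, smul_eq_C_mul]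

/-- The leading term of `ad (E i j)`. -/
theorem ad_single {n : ℕ} {f : PM I} (hf : Fl n f) (i j : I) :
    Fl n (ad (Matrix.single i j 1) f - (X (j, j) - X (i, i)) * pderiv (i, j) f) := by
  have h1 : ad (Matrix.single i j (1 : ℂ)) f =
      ∑ l : I, X (j, l) * pderiv (i, l) f - ∑ k : I, X (k, i) * pderiv (k, j) f := by
    rw [ad_eq]
    have h2 : ∀ a : I × I, ad (Matrix.single i j (1 : ℂ)) (X a) * pderiv a f =
        (if a.1 = i then X (j, a.2) * pderiv a f else 0) -
          (if a.2 = j then X (a.1, i) * pderiv a f else 0) := by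
      intro a
      rw [ad_X, Finset.sum_sub_distrib, sub_mul]
      congr 1
      · rw [Finset.sum_eq_single j]
        · rw [Matrix.single_apply]
          by_cases ha : a.1 = i
          · rw [if_pos ⟨ha.symm, rfl⟩, if_pos ha, C_1, one_mul]
          · rw [if_neg (fun h => ha h.1.symm), if_neg ha, C_0, zero_mul, zero_mul]
        · intro k _ hk
          rw [Matrix.single_apply, if_neg (fun h => hk h.2.symm), C_0, zero_mul]
        · intro h
          exact absurd (Finset.mem_univ j) h
      · rw [Finset.sum_eq_single i]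
        · rw [Matrix.single_apply]
          by_cases ha : a.2 = j
          · rw [if_pos ⟨rfl, ha.symm⟩, if_pos ha, C_1, one_mul]
          · rw [if_neg (fun h => ha h.2.symm), if_neg ha, C_0, zero_mul, zero_mul]
        · intro k _ hk
          rw [Matrix.single_apply, if_neg (fun h => hk h.1.symm), C_0, zero_mul]
        · intro h
          exact absurd (Finset.mem_univ i) h
    rw [Finset.sum_congr rfl fun a _ => h2 a, Finset.sum_sub_distrib]
    congr 1
    · rw [Fintype.sum_prod_type, Finset.sum_eq_single i]
      · exact Finset.sum_congr rfl fun l _ => if_pos rfl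
      · intro k _ hk
        exact Finset.sum_eq_zero fun l _ => if_neg hk
      · intro h
        exact absurd (Finset.mem_univ i) h
    · rw [Fintype.sum_prod_type]
      apply Finset.sum_congr rfl
      intro k _
      rw [Finset.sum_eq_single j]
      · exact if_pos rfl
      · intro l _ hl
        exact if_neg hl
      · intro h
        exact absurd (Finset.mem_univ j) h
  have h3 : ad (Matrix.single i j (1 : ℂ)) f - (X (j, j) - X (i, i)) * pderiv (i, j) f =
      ∑ l ∈ Finset.univ.erase j, X (j, l) * pderiv (i, l) f -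
        ∑ k ∈ Finset.univ.erase i, X (k, i) * pderiv (k, j) f := by
    rw [h1, ← Finset.add_sum_erase _ _ (Finset.mem_univ j),
      ← Finset.add_sum_erase (Finset.univ) (fun k => X (k, i) * pderiv (k, j) f)
        (Finset.mem_univ i)]
    ring
  rw [h3]
  apply Fl.sub
  · apply Fl.sum
    intro l hl
    apply hf.X_mul_pderiv
    have hjl : j ≠ l := (Finset.ne_of_mem_erase hl).symm
    have : wo (j, l) = 1 := if_neg hjl
    rw [this, wo]
    split_ifs <;> omega
  · apply Fl.sum
    intro k hk
    apply hf.X_mul_pderiv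
    have hki : k ≠ i := Finset.ne_of_mem_erase hk
    have : wo (k, i) = 1 := if_neg hki
    rw [this, wo]
    split_ifs <;> omega

namespace Dat

variable (S : Dat I)

/-- The root vector of the Lie algebra. -/
def root (i j : I) : Matrix I I ℂ :=
  Matrix.single i j 1 + (-(S.e i * S.e j)) • Matrix.single (S.p j) (S.p i) 1

theorem p_inj {i j : I} (h : S.p i = S.p j) : i = j := by
  rw [← S.pp i, h, S.pp]

theorem mem_root (i j : I) : S.Mem (S.root i j) := by
  intro a b
  have h1 : ∀ c d : I, (i = S.p d ∧ j = S.p c) ↔ (S.p j = c ∧ S.p i = d) := by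
    intro c d
    constructor
    · rintro ⟨rfl, rfl⟩
      exact ⟨S.pp c, S.pp d⟩
    · rintro ⟨rfl, rfl⟩
      exact ⟨(S.pp i).symm, (S.pp j).symm⟩
  rw [root, Matrix.add_apply, Matrix.add_apply, Matrix.smul_apply, Matrix.smul_apply,
    Matrix.single_apply, Matrix.single_apply, Matrix.single_apply, Matrix.single_apply,
    smul_eq_mul, smul_eq_mul]
  have h2 : (i = S.p b ∧ j = S.p a) ↔ (S.p j = a ∧ S.p i = b) := h1 a b
  have h3 : (S.p j = S.p b ∧ S.p i = S.p a) ↔ (i = a ∧ j = b) := by
    constructor
    · rintro ⟨h, h'⟩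
      exact ⟨S.p_inj h', S.p_inj h⟩
    · rintro ⟨rfl, rfl⟩
      exact ⟨rfl, rfl⟩
  by_cases ha : i = a ∧ j = b
  · by_cases hb : S.p j = a ∧ S.p i = b
    · rw [if_pos ha, if_pos hb, if_pos (h2.2 hb), if_pos (h3.2 ha)]
      rw [ha.1, ha.2]
      linear_combination (-1 : ℂ) * S.e_sq a b
    · rw [if_pos ha, if_neg hb, if_neg (fun h => hb (h2.1 h)), if_pos (h3.2 ha)]
      rw [ha.1, ha.2]
      linear_combination (-1 : ℂ) * S.e_sq a b
  · by_cases hb : S.p j = a ∧ S.p i = b
    · rw [if_neg ha, if_pos hb, if_pos (h2.2 hb), if_neg (fun h => ha (h3.1 h))]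
      rw [← hb.1, ← hb.2, mul_comm (S.e (S.p j)), S.e_pp i j]
      ring
    · rw [if_neg ha, if_neg hb, if_neg (fun h => hb (h2.1 h)), if_neg (fun h => ha (h3.1 h))]
      ring

/-- The chain rule for the projection. -/
theorem pderiv_proj (a : I × I) (f : PM I) :
    pderiv a (S.proj f) = C (1 / 2) * (S.proj (pderiv a f) -
      C (S.e a.1 * S.e a.2) * S.proj (pderiv (S.p a.2, S.p a.1) f)) := by
  induction f using MvPolynomial.induction_on with
  | C c =>
    rw [MvPolynomial.algHom_C, pderiv_C, pderiv_C]
    simp
  | add f g hf hg =>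
    rw [map_add, map_add, hf, hg, map_add, map_add, map_add, map_add]
    ring
  | mul_X f b hf =>
    have h1 : pderiv a (S.proj (X b)) = C (1 / 2) * (S.proj (pderiv a (X b)) -
        C (S.e a.1 * S.e a.2) * S.proj (pderiv (S.p a.2, S.p a.1) (X b))) := by
      rw [S.proj_X, Derivation.leibniz, pderiv_C, smul_zero, add_zero, smul_eq_mul, map_sub,
        Derivation.leibniz, pderiv_C, smul_zero, add_zero, smul_eq_mul, pderiv_X, pderiv_X,
        pderiv_X]
      congr 1
      congr 1
      · by_cases h : b = a
        · subst h; simp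
        · rw [Pi.single_eq_of_ne h, map_zero]
      · by_cases h : (S.p b.2, S.p b.1) = a
        · have hb : b = (S.p a.2, S.p a.1) := by
            rw [← h]
            simp only [S.pp]
          have e1 : S.e b.1 * S.e b.2 = S.e a.1 * S.e a.2 := by
            rw [hb]
            change S.e (S.p a.2) * S.e (S.p a.1) = _
            rw [S.e_pp, mul_comm]
          rw [e1, h, Pi.single_eq_same, ← hb, Pi.single_eq_same, map_one]
        · have hb : b ≠ (S.p a.2, S.p a.1) := by
            intro hb
            apply h
            rw [hb]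
            simp only [S.pp]
          rw [Pi.single_eq_of_ne h, Pi.single_eq_of_ne hb, map_zero, mul_zero, mul_zero]
    rw [map_mul, Derivation.leibniz, hf, Derivation.leibniz, Derivation.leibniz, h1]
    generalize (C (S.e a.1 * S.e a.2) : PM I) = c
    simp only [smul_eq_mul, map_add, map_mul]
    ring

/-- The derivatives of a polynomial which is invariant under the projection. -/
theorem pderiv_p {f : PM I} (hf : S.proj f = f) (i j : I) :
    pderiv (S.p j, S.p i) f = - (C (S.e i * S.e j) * pderiv (i, j) f) := by
  have h1 := S.pderiv_proj (i, j) f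
  have h2 := S.pderiv_proj (S.p j, S.p i) f
  rw [hf] at h1 h2
  simp only [S.pp] at h2
  have e1 : S.e (S.p j) * S.e (S.p i) = S.e i * S.e j := by rw [S.e_pp, mul_comm]
  rw [e1] at h2
  have h3 : C (S.e i * S.e j) * C (S.e i * S.e j) = (1 : PM I) := by
    rw [← C_mul, S.e_sq, C_1]
  simp only at h1
  linear_combination h2 + C (S.e i * S.e j) * h1 -
    (C (1 / 2) * S.proj (pderiv (S.p j, S.p i) f)) * h3

/-- The linear form `2 (t_j - t_i)`. -/
def lf (i j : I) : PM I := X (j, j) - X (i, i) + (X (S.p i, S.p i) - X (S.p j, S.p j))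

theorem lf_homog (i j : I) : IsWeightedHomogeneous wo (S.lf i j) 0 := by
  have h : ∀ k : I, IsWeightedHomogeneous wo (X (k, k) : PM I) 0 := by
    intro k
    have := isWeightedHomogeneous_X ℂ (wo : I × I → ℕ) (k, k)
    have e : wo (k, k) = 0 := if_pos rfl
    rwa [e] at this
  exact ((h j).sub (h i)).add ((h _).sub (h _))

theorem lf_ne {i j : I} (hij : i ≠ j) : S.lf i j ≠ 0 := by
  intro h0
  have h1 : ∀ k : I, (if j = k then (1 : ℂ) else 0) - (if i = k then 1 else 0) +
      ((if S.p i = k then 1 else 0) - (if S.p j = k then 1 else 0)) = 0 := by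
    intro k
    have := congrArg (eval (dg fun l => if l = k then (1 : ℂ) else 0)) h0
    rw [lf, map_add, map_sub, map_sub, eval_X, eval_X, eval_X, eval_X, map_zero] at this
    simpa [dg] using this
  have hj := h1 j
  have hi := h1 i
  rw [if_pos rfl, if_neg hij] at hj
  rw [if_pos rfl, if_neg hij.symm] at hi
  have hpj : S.p j = j := by
    by_contra hc
    rw [if_neg hc] at hj
    by_cases hc' : S.p i = j
    · rw [if_pos hc'] at hj
      norm_num at hj
    · rw [if_neg hc'] at hj
      norm_num at hj
  have hpi : S.p i = i := by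
    by_contra hc
    rw [if_neg hc] at hi
    by_cases hc' : S.p j = i
    · rw [if_pos hc'] at hi
      norm_num at hi
    · rw [if_neg hc'] at hi
      norm_num at hi
  exact hij (S.fx i j hpi hpj)

/-- **Injectivity of the Chevalley restriction.** -/
theorem eq_zero {f : PM I} (hf : S.proj f = f)
    (hA : ∀ A : Matrix I I ℂ, S.Mem A → ad A f = 0)
    (ht : ∀ x : I → ℂ, (∀ i, x (S.p i) = - x i) → eval (dg x) f = 0) : f = 0 := by
  apply eq_zero_of_Fl
  have h1 : Fl 1 f := by
    apply Fl.one_of_eval
    intro x
    rw [← hf]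
    have h2 : ∀ y : I × I → ℂ, eval y (S.proj f) =
        eval (fun a => (1 / 2) * (y a - S.e a.1 * S.e a.2 * y (S.p a.2, S.p a.1))) f := by
      intro y
      have h3 : (aeval y : PM I →ₐ[ℂ] ℂ).comp S.proj =
          aeval (fun a => (1 / 2) * (y a - S.e a.1 * S.e a.2 * y (S.p a.2, S.p a.1))) := by
        apply algHom_ext
        intro a
        rw [AlgHom.comp_apply, S.proj_X, aeval_X]
        simp
      have h4 := AlgHom.congr_fun h3 f
      rw [AlgHom.comp_apply] at h4
      simpa [aeval_eq_eval] using h4
    rw [h2]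
    have h3 : (fun a : I × I => (1 / 2 : ℂ) * (dg x a - S.e a.1 * S.e a.2 *
        dg x (S.p a.2, S.p a.1))) = dg fun i => (1 / 2) * (x i - x (S.p i)) := by
      funext a
      by_cases h : a.1 = a.2
      · rw [dg, dg, dg, if_pos h, if_pos h, if_pos (by change S.p a.2 = S.p a.1; rw [h])]
        change 1 / 2 * (x a.1 - S.e a.1 * S.e a.2 * x (S.p a.2)) = _
        rw [← h, S.ee, one_mul]
      · rw [dg, dg, dg, if_neg h, if_neg h, if_neg (fun h' => h (S.p_inj h').symm)]
        ring
    rw [h3]
    apply ht
    intro i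
    rw [S.pp]
    ring
  intro n
  induction n with
  | zero => exact h1.mono (Nat.zero_le _)
  | succ n ih =>
    rcases Nat.eq_zero_or_pos n with rfl | hn
    · exact h1
    · apply Fl.succ hn ih
      rintro ⟨i, j⟩ (hij : i ≠ j)
      apply Fl.of_mul (S.lf_homog i j) (S.lf_ne hij)
      have e1 := ad_single ih i j
      have e2 := (ad_single ih (S.p j) (S.p i)).C_mul (-(S.e i * S.e j))
      have e3 : ad (S.root i j) f = 0 := hA _ (S.mem_root i j)
      rw [root, ad_add, ad_smul] at e3
      have e4 := e1.add e2
      have e5 : C (S.e i * S.e j) * C (S.e i * S.e j) = (1 : PM I) := by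
        rw [← C_mul, S.e_sq, C_1]
      have e6 : ad (Matrix.single i j (1 : ℂ)) f - (X (j, j) - X (i, i)) * pderiv (i, j) f +
          C (-(S.e i * S.e j)) * (ad (Matrix.single (S.p j) (S.p i) (1 : ℂ)) f -
            (X (S.p i, S.p i) - X (S.p j, S.p j)) * pderiv (S.p j, S.p i) f) =
          - (S.lf i j * pderiv (i, j) f) := by
        rw [S.pderiv_p hf, lf, C_neg]
        rw [C_neg] at e3
        linear_combination e3 - ((X (S.p i, S.p i) - X (S.p j, S.p j)) * pderiv (i, j) f) * e5
      rw [e6] at e4
      have e7 := e4.neg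
      rwa [neg_neg] at e7

end Dat

end

end Vale.Agent.P286.H374
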