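import Vale.Agent.P286.H710.OmCt
import Vale.Agent.P286.H847.Ten

/-!
# Operators on `W ⊗ V`, for an algebra `W` with a sign automorphism and a module `V` over the forms

`lw w` is the left multiplication by `w`, `ro b` the multiplication by the function `b`, and `r1 b`
the multiplication by the form `db` (with the sign of `W`).
-/

namespace Vale.Agent.P286.H374.Gau

open TensorProduct H710 Matrix

noncomputable section

set_option linter.unusedSectionVars false

variable {W : Type} [Ring W] [Algebra ℂ W] (s : W →ₐ[ℂ] W)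
variable {B : Type} [CommRing B] [Algebra ℂ B]
variable {V : Type} [AddCommGroup V] [Module ℂ V] [Module (Om ℂ B) V] [IsScalarTower ℂ (Om ℂ B) V]

section Ops

variable (V)

/-- The multiplication by a form. -/
def om (w : Om ℂ B) : V →ₗ[ℂ] V where
  toFun x := w • x
  map_add' x y := smul_add w x y
  map_smul' c x := by
    rw [RingHom.id_apply, ← smul_one_smul (Om ℂ B) c x, ← smul_one_smul (Om ℂ B) c (w • x),
      smul_smul, smul_smul, smul_mul_assoc, one_mul, mul_smul_comm, mul_one]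

theorem om_apply (w : Om ℂ B) (x : V) : om V w x = w • x := rfl

/-- The left multiplication by `w`. -/
def lw (w : W) : W ⊗[ℂ] V →ₗ[ℂ] W ⊗[ℂ] V := TensorProduct.map (LinearMap.mulLeft ℂ w) LinearMap.id

theorem lw_tmul (w a : W) (x : V) : lw V w (a ⊗ₜ[ℂ] x) = (w * a) ⊗ₜ x := rfl

/-- The multiplication by the function `b`. -/
def ro (W : Type) [Ring W] [Algebra ℂ W] (b : B) : W ⊗[ℂ] V →ₗ[ℂ] W ⊗[ℂ] V :=
  TensorProduct.map LinearMap.id (om V (algebraMap B (Om ℂ B) b))

theorem ro_tmul (b : B) (a : W) (x : V) :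
    ro V W b (a ⊗ₜ[ℂ] x) = a ⊗ₜ ((algebraMap B (Om ℂ B) b) • x) := rfl

/-- The multiplication by the one-form `η`, with the sign. -/
def r1 (w : Om ℂ B) : W ⊗[ℂ] V →ₗ[ℂ] W ⊗[ℂ] V :=
  TensorProduct.map s.toLinearMap (om V w)

theorem r1_tmul (w : Om ℂ B) (a : W) (x : V) : r1 s V w (a ⊗ₜ[ℂ] x) = (s a) ⊗ₜ (w • x) := rfl

variable {V}

theorem hom_ext {U : Type} [AddCommGroup U] [Module ℂ U] {f g : W ⊗[ℂ] V →ₗ[ℂ] U}
    (h : ∀ a x, f (a ⊗ₜ x) = g (a ⊗ₜ x)) : f = g := TensorProduct.ext' h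

theorem lw_mul (w w' : W) : lw V (w * w') = lw V w * lw V w' :=
  hom_ext fun a x => by
    rw [Module.End.mul_apply, lw_tmul, lw_tmul, lw_tmul, mul_assoc]

theorem lw_one : lw V (1 : W) = 1 := hom_ext fun a x => by rw [lw_tmul, one_mul]; rfl

theorem lw_add (w w' : W) : lw V (w + w') = lw V w + lw V w' :=
  hom_ext fun a x => by
    rw [LinearMap.add_apply, lw_tmul, lw_tmul, lw_tmul, add_mul, add_tmul]

theorem lw_zero : lw V (0 : W) = 0 := hom_ext fun a x => by
  rw [lw_tmul, zero_mul, zero_tmul]; rfl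

theorem lw_neg (w : W) : lw V (-w) = - lw V w := hom_ext fun a x => by
  rw [LinearMap.neg_apply, lw_tmul, lw_tmul, neg_mul, neg_tmul]

/-- The left multiplications, as a homomorphism. -/
def lwH (W : Type) [Ring W] [Algebra ℂ W] (V : Type) [AddCommGroup V] [Module ℂ V] :
    W →ₐ[ℂ] Module.End ℂ (W ⊗[ℂ] V) where
  toFun w := lw V w
  map_one' := lw_one
  map_mul' := lw_mul
  map_zero' := lw_zero
  map_add' := lw_add
  commutes' c := hom_ext fun a x => by
    rw [lw_tmul, ← Algebra.smul_def, Module.algebraMap_end_apply, TensorProduct.smul_tmul']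

theorem lwH_apply (w : W) : lwH W V w = lw V w := rfl

theorem ro_mul (b c : B) : ro V W (b * c) = ro V W b * ro V W c :=
  hom_ext fun a x => by
    rw [Module.End.mul_apply, ro_tmul, ro_tmul, ro_tmul, map_mul, mul_smul]

theorem ro_one : ro V W (1 : B) = 1 := hom_ext fun a x => by rw [ro_tmul, map_one, one_smul]; rfl

theorem ro_add (b c : B) : ro V W (b + c) = ro V W b + ro V W c :=
  hom_ext fun a x => by
    rw [LinearMap.add_apply, ro_tmul, ro_tmul, ro_tmul, map_add, add_smul, tmul_add]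

theorem ro_zero : ro V W (0 : B) = 0 := hom_ext fun a x => by
  rw [ro_tmul, map_zero, zero_smul, tmul_zero]; rfl

/-- The multiplications by functions, as a homomorphism. -/
def roH (B : Type) [CommRing B] [Algebra ℂ B] (W : Type) [Ring W] [Algebra ℂ W] (V : Type)
    [AddCommGroup V] [Module ℂ V] [Module (Om ℂ B) V] [IsScalarTower ℂ (Om ℂ B) V] :
    B →ₐ[ℂ] Module.End ℂ (W ⊗[ℂ] V) where
  toFun b := ro V W b
  map_one' := ro_one
  map_mul' := ro_mul
  map_zero' := ro_zero
  map_add' := ro_add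
  commutes' c := hom_ext fun a x => by
    rw [ro_tmul, Module.algebraMap_end_apply, ← IsScalarTower.algebraMap_apply,
      algebraMap_smul, TensorProduct.tmul_smul]

theorem roH_apply (b : B) : roH B W V b = ro V W b := rfl

theorem r1_add (w w' : Om ℂ B) : r1 s V (w + w') = r1 s V w + r1 s V w' :=
  hom_ext fun a x => by
    rw [LinearMap.add_apply, r1_tmul, r1_tmul, r1_tmul, add_smul, tmul_add]

theorem r1_zero : r1 s V (0 : Om ℂ B) = 0 := hom_ext fun a x => by
  rw [r1_tmul, zero_smul, tmul_zero]; rfl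

theorem r1_neg (w : Om ℂ B) : r1 s V (-w) = - r1 s V w := hom_ext fun a x => by
  rw [LinearMap.neg_apply, r1_tmul, r1_tmul, neg_smul, tmul_neg]

theorem r1_smul (b : B) (w : Om ℂ B) : r1 s V (b • w) = ro V W b * r1 s V w :=
  hom_ext fun a x => by
    rw [Module.End.mul_apply, r1_tmul, r1_tmul, ro_tmul, Algebra.smul_def, mul_smul]

/-- Functions commute with everything. -/
theorem ro_lw (b : B) (w : W) : ro V W b * lw V w = lw V w * ro V W b :=
  hom_ext fun _ _ => rfl

theorem ro_r1 (b : B) (w : Om ℂ B) : ro V W b * r1 s V w = r1 s V w * ro V W b :=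
  hom_ext fun a x => by
    rw [Module.End.mul_apply, Module.End.mul_apply, r1_tmul, ro_tmul, ro_tmul, r1_tmul,
      smul_smul, smul_smul, Algebra.commutes]

theorem ro_ro (b c : B) : ro V W b * ro V W c = ro V W c * ro V W b := by
  rw [← ro_mul, mul_comm, ro_mul]

theorem lw_r1 (w : W) (o : Om ℂ B) : lw V (s w) * r1 s V o = r1 s V o * lw V w :=
  hom_ext fun a x => by
    rw [Module.End.mul_apply, Module.End.mul_apply, r1_tmul, lw_tmul, lw_tmul, r1_tmul, map_mul]

theorem r1_r1 (hs : ∀ a, s (s a) = a) (m m' : Ω[B⁄ℂ]) :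
    r1 s V (ExteriorAlgebra.ι B m) * r1 s V (ExteriorAlgebra.ι B m') +
      r1 s V (ExteriorAlgebra.ι B m') * r1 s V (ExteriorAlgebra.ι B m) = 0 :=
  hom_ext fun a x => by
    rw [LinearMap.add_apply, Module.End.mul_apply, Module.End.mul_apply, r1_tmul, r1_tmul,
      r1_tmul, r1_tmul, hs, smul_smul, smul_smul, ← tmul_add, ← add_smul,
      ExteriorAlgebra.ι_add_mul_swap, zero_smul, tmul_zero]
    rfl

end Ops

section Diff

variable (dW : W →ₗ[ℂ] W) (dV : V →ₗ[ℂ] V)

/-- The differential of `W ⊗ V`. -/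
def dt : W ⊗[ℂ] V →ₗ[ℂ] W ⊗[ℂ] V :=
  TensorProduct.map dW LinearMap.id + TensorProduct.map s.toLinearMap dV

theorem dt_tmul (a : W) (x : V) :
    dt s dW dV (a ⊗ₜ[ℂ] x) = dW a ⊗ₜ x + s a ⊗ₜ dV x := rfl

variable {s dW dV}

theorem dt_lw (hd : ∀ a b, dW (a * b) = dW a * b + s a * dW b) (w : W) :
    dt s dW dV * lw V w = lw V (dW w) + lw V (s w) * dt s dW dV :=
  hom_ext fun a x => by
    rw [Module.End.mul_apply, LinearMap.add_apply, Module.End.mul_apply, lw_tmul, dt_tmul,
      dt_tmul, hd, map_mul, map_add, lw_tmul, lw_tmul, lw_tmul, add_tmul, add_assoc]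

theorem dt_ro (hV : ∀ (w : Om ℂ B) (x : V), dV (w • x) = Om.d w • x + Om.sg w • dV x) (b : B) :
    dt s dW dV * ro V W b = r1 s V (Om.dd b) + ro V W b * dt s dW dV :=
  hom_ext fun a x => by
    rw [Module.End.mul_apply, LinearMap.add_apply, Module.End.mul_apply, ro_tmul, dt_tmul,
      dt_tmul, hV, map_add, ro_tmul, ro_tmul, r1_tmul, Om.d_algebraMap, AlgHom.commutes, tmul_add]
    abel

theorem dt_r1 (hs : ∀ a, s (s a) = a) (hsd : ∀ a, s (dW a) = - dW (s a))
    (hV : ∀ (w : Om ℂ B) (x : V), dV (w • x) = Om.d w • x + Om.sg w • dV x) (b : B) :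
    dt s dW dV * r1 s V (Om.dd b) = - (r1 s V (Om.dd b) * dt s dW dV) :=
  hom_ext fun a x => by
    rw [Module.End.mul_apply, LinearMap.neg_apply, Module.End.mul_apply, r1_tmul, dt_tmul,
      dt_tmul, hV, map_add, r1_tmul, r1_tmul, Om.d_dd, zero_smul, zero_add, Om.sg_dd, hs, hsd,
      neg_smul, neg_tmul, tmul_neg]
    abel

end Diff

end

end Vale.Agent.P286.H374.Gau
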