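import Vale.Agent.P286.H710.OmCt

/-!
# The gauge transformation of the generators of the Weil algebra
-/

namespace Vale.Agent.P286.H374.Gau

open TensorProduct H710 Matrix

noncomputable section

set_option linter.unusedSectionVars false

/-- What is used of the algebra `Wk`: the generators `th i j`, `F i j`, `xi i` with
`d (th) = F - th th`, `d F = F th - th F`, `d (xi i) = y i (F)`, the induction principle and the universal property. -/
structure WD (I : Type) [Fintype I] [DecidableEq I] (n : ℕ)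
    (y : Fin n → MvPolynomial (I × I) ℂ) (W : Type) [Ring W] [Algebra ℂ W] where
  s : W →ₐ[ℂ] W
  d : W →ₗ[ℂ] W
  ss : ∀ a, s (s a) = a
  sd : ∀ a, s (d a) = - d (s a)
  dm : ∀ a b, d (a * b) = d a * b + s a * d b
  th : Matrix I I W
  xi : Fin n → W
  /-- the polynomials in the curvature -/
  P : MvPolynomial (I × I) ℂ →ₐ[ℂ] W
  sth : ∀ i j, s (th i j) = - th i j
  sxi : ∀ i, s (xi i) = - xi i
  sP : ∀ p, s (P p) = P p
  Pc : ∀ p w, P p * w = w * P p
  dth : ∀ i j, d (th i j) = P (MvPolynomial.X (i, j)) - (th * th) i j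
  dF : ∀ i j, d (P (MvPolynomial.X (i, j))) =
    ∑ k, (P (MvPolynomial.X (i, k)) * th k j - th i k * P (MvPolynomial.X (k, j)))
  dxi : ∀ i, d (xi i) = P (y i)
  thth : ∀ i j k l, th i j * th k l + th k l * th i j = 0
  thxi : ∀ i j k, th i j * xi k + xi k * th i j = 0
  xixi : ∀ i j, xi i * xi j + xi j * xi i = 0
  gen : ∀ p : Subalgebra ℂ W, (∀ i j, th i j ∈ p) → (∀ i, xi i ∈ p) → (∀ q, P q ∈ p) → p = ⊤
  lift : ∀ {E : Type} [Ring E] [Algebra ℂ E] (T : Matrix I I E) (x : Fin n → E)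
    (f : MvPolynomial (I × I) ℂ →ₐ[ℂ] E),
    (∀ i j k l, T i j * T k l + T k l * T i j = 0) → (∀ i j k, T i j * x k + x k * T i j = 0) →
    (∀ i j, x i * x j + x j * x i = 0) → (∀ p i j, f p * T i j = T i j * f p) →
    (∀ p i, f p * x i = x i * f p) →
    ∃ a : W →ₐ[ℂ] E, (∀ i j, a (th i j) = T i j) ∧ (∀ i, a (xi i) = x i) ∧ ∀ p, a (P p) = f p

variable {I : Type} [Fintype I] [DecidableEq I] {n : ℕ} {y : Fin n → MvPolynomial (I × I) ℂ}
variable {W : Type} [Ring W] [Algebra ℂ W]

namespace WD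

variable (Q : WD I n y W)

/-- The matrix of the curvature. -/
def Fm : Matrix I I W := Matrix.of fun i j => Q.P (MvPolynomial.X (i, j))

theorem Fm_apply (i j : I) : Q.Fm i j = Q.P (MvPolynomial.X (i, j)) := rfl

theorem dth' : Q.th.map Q.d = Q.Fm - Q.th * Q.th := by
  ext i j
  exact Q.dth i j

theorem dF' : Q.Fm.map Q.d = Q.Fm * Q.th - Q.th * Q.Fm := by
  ext i j
  rw [Matrix.map_apply, Fm_apply, Q.dF, Matrix.sub_apply, Matrix.mul_apply, Matrix.mul_apply,
    ← Finset.sum_sub_distrib]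
  rfl

end WD

section Ring

/-- The identity behind `{D, a(Θ)} = a(F) - a(Θ)²`. -/
theorem ring_T {R : Type} [Ring R] {D u v T F e : R} (huv : u * v = 1)
    (hv : D * v = -(v * e * v) + v * D) (hu : D * u = e + u * D) (he : D * e = -(e * D))
    (hT : D * T = F - T * T - T * D) :
    D * (v * T * u + v * e) = v * F * u - (v * T * u + v * e) * (v * T * u + v * e) -
      (v * T * u + v * e) * D := by
  have h1 : (v * T * u + v * e) * (v * T * u + v * e) =
      v * T * (u * v) * T * u + v * T * (u * v) * e + v * e * v * T * u + v * e * v * e := by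
    noncomm_ring
  have h2 : D * (v * T * u + v * e) = (D * v) * T * u + (D * v) * e := by noncomm_ring
  have h3 : (-(v * e * v) + v * D) * T * u + (-(v * e * v) + v * D) * e =
      -(v * e * v * T * u) - v * e * v * e + v * (D * T) * u + v * (D * e) := by noncomm_ring
  have h4 : v * (F - T * T - T * D) * u = v * F * u - v * T * T * u - v * T * (D * u) := by
    noncomm_ring
  rw [h1, h2, hv, h3, hT, he, h4, hu, huv]
  noncomm_ring

/-- The identity behind `[D, a(F)] = a(F) a(Θ) - a(Θ) a(F)`. -/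
theorem ring_F {R : Type} [Ring R] {D u v T F e : R} (huv : u * v = 1)
    (hv : D * v = -(v * e * v) + v * D) (hu : D * u = e + u * D)
    (hF : D * F = F * T - T * F + F * D) :
    D * (v * F * u) = v * F * u * (v * T * u + v * e) - (v * T * u + v * e) * (v * F * u) +
      v * F * u * D := by
  have h1 : v * F * u * (v * T * u + v * e) - (v * T * u + v * e) * (v * F * u) =
      v * F * (u * v) * T * u + v * F * (u * v) * e - v * T * (u * v) * F * u -
        v * e * v * F * u := by noncomm_ring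
  have h2 : D * (v * F * u) = (D * v) * F * u := by noncomm_ring
  have h3 : (-(v * e * v) + v * D) * F * u = -(v * e * v * F * u) + v * (D * F) * u := by
    noncomm_ring
  have h4 : v * (F * T - T * F + F * D) * u = v * F * T * u - v * T * F * u +
      v * F * (D * u) := by noncomm_ring
  rw [h1, h2, hv, h3, hF, h4, hu, huv]
  noncomm_ring

/-- The identity behind the composition of gauge transformations. -/
theorem ring_comp {R : Type} [Ring R] {u v u' v' T e e' : R} :
    v' * (v * T * u + v * e) * u' + v' * e' = v' * v * T * (u * u') + v' * v * (e * u') +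
      v' * e' := by
  noncomm_ring

end Ring

/-- An algebra `E` (of operators) containing the algebra `W`, the functions on `B`, the one-forms
(which anticommute with the odd elements of `W`) and a differential `D`. -/
structure Rp (Q : WD I n y W) (B : Type) [CommRing B] [Algebra ℂ B] (E : Type) [Ring E]
    [Algebra ℂ E] where
  lw : W →ₐ[ℂ] E
  ro : B →ₐ[ℂ] E
  r1 : Om ℂ B →+ E
  r1_smul : ∀ (b : B) (w : Om ℂ B), r1 (b • w) = ro b * r1 w
  ro_lw : ∀ b w, ro b * lw w = lw w * ro b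
  ro_r1 : ∀ b w, ro b * r1 w = r1 w * ro b
  lw_r1 : ∀ w o, lw (Q.s w) * r1 o = r1 o * lw w
  r1_r1 : ∀ m m' : Ω[B⁄ℂ], r1 (ExteriorAlgebra.ι B m) * r1 (ExteriorAlgebra.ι B m') +
    r1 (ExteriorAlgebra.ι B m') * r1 (ExteriorAlgebra.ι B m) = 0
  D : E
  D_lw : ∀ w, D * lw w = lw (Q.d w) + lw (Q.s w) * D
  D_ro : ∀ b, D * ro b = r1 (Om.dd b) + ro b * D
  D_r1 : ∀ b, D * r1 (Om.dd b) = -(r1 (Om.dd b) * D)

namespace Rp

variable {Q : WD I n y W} {B : Type} [CommRing B] [Algebra ℂ B] {E : Type} [Ring E] [Algebra ℂ E]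
variable (R : Rp Q B E)

/-- The matrix of left multiplications. -/
def lwM (M : Matrix I I W) : Matrix I I E := M.map R.lw

/-- The matrix of multiplications by functions. -/
def roM (U : Matrix I I B) : Matrix I I E := U.map R.ro

/-- The matrix `dU`. -/
def deM (U : Matrix I I B) : Matrix I I E := U.map fun b => R.r1 (Om.dd b)

/-- The diagonal matrix `D`. -/
def DM : Matrix I I E := Matrix.diagonal fun _ => R.D

theorem lwM_apply (M : Matrix I I W) (i j : I) : R.lwM M i j = R.lw (M i j) := rfl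

theorem roM_apply (U : Matrix I I B) (i j : I) : R.roM U i j = R.ro (U i j) := rfl

theorem deM_apply (U : Matrix I I B) (i j : I) : R.deM U i j = R.r1 (Om.dd (U i j)) := rfl

theorem DM_mul (M : Matrix I I E) (i j : I) : (R.DM * M) i j = R.D * M i j :=
  Matrix.diagonal_mul _ _ _ _

theorem mul_DM (M : Matrix I I E) (i j : I) : (M * R.DM) i j = M i j * R.D :=
  Matrix.mul_diagonal _ _ _ _

theorem lwM_mul (M N : Matrix I I W) : R.lwM (M * N) = R.lwM M * R.lwM N := Matrix.map_mul

theorem lwM_sub (M N : Matrix I I W) : R.lwM (M - N) = R.lwM M - R.lwM N := by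
  ext1 i j
  exact map_sub R.lw _ _

theorem roM_mul (U U' : Matrix I I B) : R.roM (U * U') = R.roM U * R.roM U' := Matrix.map_mul

theorem roM_one : R.roM (1 : Matrix I I B) = 1 := Matrix.map_one _ (map_zero _) (map_one _)

theorem r1_const (c : ℂ) : R.r1 (Om.dd (algebraMap ℂ B c)) = 0 := by
  rw [Om.dd_const, map_zero]

theorem deM_one : R.deM (1 : Matrix I I B) = 0 := by
  ext1 i j
  rw [deM_apply, Matrix.one_apply]
  split_ifs
  · have := R.r1_const 1
    rw [map_one] at this
    exact this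
  · have := R.r1_const 0
    rw [map_zero] at this
    exact this

/-- The Leibniz rule. -/
theorem deM_mul (U U' : Matrix I I B) :
    R.deM (U * U') = R.deM U * R.roM U' + R.roM U * R.deM U' := by
  ext1 i j
  rw [deM_apply, Matrix.mul_apply, Matrix.add_apply, Matrix.mul_apply, Matrix.mul_apply,
    ← Finset.sum_add_distrib]
  have h : ∀ (t : Finset I) (f : I → B), R.r1 (Om.dd (∑ k ∈ t, f k) : Om ℂ B) =
      ∑ k ∈ t, R.r1 (Om.dd (f k)) := by
    intro t f
    induction t using Finset.induction_on with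
    | empty =>
      rw [Finset.sum_empty, Finset.sum_empty]
      have := R.r1_const 0
      rw [map_zero] at this
      exact this
    | insert a t ha ih =>
      rw [Finset.sum_insert ha, Finset.sum_insert ha, Om.dd_add, map_add, ih]
  rw [h]
  refine Finset.sum_congr rfl fun k _ => ?_
  rw [Om.dd_mul, map_add, r1_smul, r1_smul, R.ro_r1 (U' k j), deM_apply, deM_apply, roM_apply,
    roM_apply, add_comm]

/-- The gauge transform of `Θ`: the matrix `U⁻¹ Θ U + U⁻¹ dU`. -/
def aT (U U' : Matrix I I B) : Matrix I I E :=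
  R.roM U' * R.lwM Q.th * R.roM U + R.roM U' * R.deM U

/-- The gauge transform of `F`: the matrix `U⁻¹ F U`. -/
def aF (U U' : Matrix I I B) : Matrix I I E := R.roM U' * R.lwM Q.Fm * R.roM U

variable {U U' : Matrix I I B}

theorem ro_uv (h : U * U' = 1) : R.roM U * R.roM U' = 1 := by
  rw [← roM_mul, h, roM_one]

/-- `d (U⁻¹) = - U⁻¹ dU U⁻¹`. -/
theorem de_inv (h : U * U' = 1) (h' : U' * U = 1) :
    R.deM U' = -(R.roM U' * R.deM U * R.roM U') := by
  have h1 : R.deM U' * R.roM U + R.roM U' * R.deM U = 0 := by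
    rw [← deM_mul, h', deM_one]
  have h2 : R.deM U' * (R.roM U * R.roM U') = -(R.roM U' * R.deM U * R.roM U') := by
    rw [← mul_assoc, eq_neg_of_add_eq_zero_left h1, neg_mul]
  rwa [R.ro_uv h, mul_one] at h2

theorem DM_ro (U : Matrix I I B) : R.DM * R.roM U = R.deM U + R.roM U * R.DM := by
  ext1 i j
  rw [Matrix.add_apply, DM_mul, mul_DM, roM_apply, deM_apply]
  exact R.D_ro _

theorem DM_de (U : Matrix I I B) : R.DM * R.deM U = -(R.deM U * R.DM) := by
  ext1 i j
  rw [Matrix.neg_apply, DM_mul, mul_DM, deM_apply]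
  exact R.D_r1 _

theorem DM_th : R.DM * R.lwM Q.th =
    R.lwM Q.Fm - R.lwM Q.th * R.lwM Q.th - R.lwM Q.th * R.DM := by
  have h : R.DM * R.lwM Q.th = R.lwM (Q.th.map Q.d) - R.lwM Q.th * R.DM := by
    ext1 i j
    rw [Matrix.sub_apply, DM_mul, mul_DM, lwM_apply, lwM_apply, R.D_lw, Q.sth, map_neg,
      neg_mul, sub_eq_add_neg, Matrix.map_apply]
  rw [h, Q.dth', lwM_sub, lwM_mul]

theorem DM_F : R.DM * R.lwM Q.Fm =
    R.lwM Q.Fm * R.lwM Q.th - R.lwM Q.th * R.lwM Q.Fm + R.lwM Q.Fm * R.DM := by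
  have h : R.DM * R.lwM Q.Fm = R.lwM (Q.Fm.map Q.d) + R.lwM Q.Fm * R.DM := by
    ext1 i j
    rw [Matrix.add_apply, DM_mul, mul_DM, lwM_apply, lwM_apply, R.D_lw, Q.Fm_apply, Q.sP,
      Matrix.map_apply, Q.Fm_apply]
  rw [h, Q.dF', lwM_sub, lwM_mul, lwM_mul]

theorem DM_inv (h : U * U' = 1) (h' : U' * U = 1) :
    R.DM * R.roM U' = -(R.roM U' * R.deM U * R.roM U') + R.roM U' * R.DM := by
  rw [DM_ro, R.de_inv h h']

/-- `{D, a(Θ)} = a(F) - a(Θ) a(Θ)`. -/
theorem DM_aT (h : U * U' = 1) (h' : U' * U = 1) :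
    R.DM * R.aT U U' = R.aF U U' - R.aT U U' * R.aT U U' - R.aT U U' * R.DM :=
  ring_T (R.ro_uv h) (R.DM_inv h h') (R.DM_ro U) (R.DM_de U) R.DM_th

/-- `[D, a(F)] = a(F) a(Θ) - a(Θ) a(F)`. -/
theorem DM_aF (h : U * U' = 1) (h' : U' * U = 1) :
    R.DM * R.aF U U' = R.aF U U' * R.aT U U' - R.aT U U' * R.aF U U' + R.aF U U' * R.DM :=
  ring_F (R.ro_uv h) (R.DM_inv h h') (R.DM_ro U) R.DM_F

/-- The elements which commute with the functions and anticommute with the odd elements. -/
structure IsO (x : E) : Prop where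
  ro : ∀ b, x * R.ro b = R.ro b * x
  th : ∀ i j, x * R.lw (Q.th i j) = -(R.lw (Q.th i j) * x)
  xi : ∀ i, x * R.lw (Q.xi i) = -(R.lw (Q.xi i) * x)
  r1 : ∀ m : Ω[B⁄ℂ], x * R.r1 (ExteriorAlgebra.ι B m) = -(R.r1 (ExteriorAlgebra.ι B m) * x)
  P : ∀ q, x * R.lw (Q.P q) = R.lw (Q.P q) * x

variable {R}

theorem IsO.zero : R.IsO 0 :=
  ⟨fun b => by rw [zero_mul, mul_zero], fun i j => by rw [zero_mul, mul_zero, neg_zero],
    fun i => by rw [zero_mul, mul_zero, neg_zero], fun m => by rw [zero_mul, mul_zero, neg_zero],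
    fun q => by rw [zero_mul, mul_zero]⟩

theorem IsO.add {x z : E} (hx : R.IsO x) (hz : R.IsO z) : R.IsO (x + z) :=
  ⟨fun b => by rw [add_mul, mul_add, hx.ro, hz.ro],
    fun i j => by rw [add_mul, mul_add, hx.th, hz.th, neg_add],
    fun i => by rw [add_mul, mul_add, hx.xi, hz.xi, neg_add],
    fun m => by rw [add_mul, mul_add, hx.r1, hz.r1, neg_add],
    fun q => by rw [add_mul, mul_add, hx.P, hz.P]⟩

theorem IsO.sum {J : Type} {t : Finset J} {f : J → E} (h : ∀ k ∈ t, R.IsO (f k)) :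
    R.IsO (∑ k ∈ t, f k) := by
  classical
  induction t using Finset.induction_on with
  | empty => exact IsO.zero
  | insert a t ha ih =>
    rw [Finset.sum_insert ha]
    exact (h a (Finset.mem_insert_self _ _)).add
      (ih fun k hk => h k (Finset.mem_insert_of_mem hk))

theorem ro_ro (R : Rp Q B E) (b c : B) : R.ro b * R.ro c = R.ro c * R.ro b := by
  rw [← map_mul, mul_comm, map_mul]

theorem IsO.ro_mul {x : E} (hx : R.IsO x) (b : B) : R.IsO (R.ro b * x) :=
  ⟨fun c => by rw [mul_assoc, hx.ro, ← mul_assoc, R.ro_ro, mul_assoc],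
    fun i j => by rw [mul_assoc, hx.th, mul_neg, ← mul_assoc, R.ro_lw, mul_assoc],
    fun i => by rw [mul_assoc, hx.xi, mul_neg, ← mul_assoc, R.ro_lw, mul_assoc],
    fun m => by rw [mul_assoc, hx.r1, mul_neg, ← mul_assoc, R.ro_r1, mul_assoc],
    fun q => by rw [mul_assoc, hx.P, ← mul_assoc, R.ro_lw, mul_assoc]⟩

theorem IsO.mul_ro {x : E} (hx : R.IsO x) (b : B) : R.IsO (x * R.ro b) := by
  rw [hx.ro]
  exact hx.ro_mul b

theorem IsO.of_th (i j : I) : R.IsO (R.lw (Q.th i j)) :=
  ⟨fun b => (R.ro_lw b _).symm,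
    fun k l => by
      rw [← map_mul, ← map_mul, ← map_neg, eq_neg_of_add_eq_zero_left (Q.thth i j k l)],
    fun k => by rw [← map_mul, ← map_mul, ← map_neg, eq_neg_of_add_eq_zero_left (Q.thxi i j k)],
    fun m => by
      have h := R.lw_r1 (Q.th i j) (ExteriorAlgebra.ι B m)
      rw [Q.sth, map_neg, neg_mul] at h
      rw [← h, neg_neg],
    fun q => by rw [← map_mul, ← map_mul, Q.Pc]⟩

theorem IsO.of_xi (i : Fin n) : R.IsO (R.lw (Q.xi i)) :=
  ⟨fun b => (R.ro_lw b _).symm,
    fun k l => by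
      rw [← map_mul, ← map_mul, ← map_neg, eq_neg_of_add_eq_zero_right (Q.thxi k l i)],
    fun k => by rw [← map_mul, ← map_mul, ← map_neg, eq_neg_of_add_eq_zero_left (Q.xixi i k)],
    fun m => by
      have h := R.lw_r1 (Q.xi i) (ExteriorAlgebra.ι B m)
      rw [Q.sxi, map_neg, neg_mul] at h
      rw [← h, neg_neg],
    fun q => by rw [← map_mul, ← map_mul, Q.Pc]⟩

theorem IsO.of_r1 (m : Ω[B⁄ℂ]) : R.IsO (R.r1 (ExteriorAlgebra.ι B m)) :=
  ⟨fun b => (R.ro_r1 b _).symm,
    fun i j => by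
      have h := R.lw_r1 (Q.th i j) (ExteriorAlgebra.ι B m)
      rw [Q.sth, map_neg, neg_mul] at h
      exact h.symm,
    fun i => by
      have h := R.lw_r1 (Q.xi i) (ExteriorAlgebra.ι B m)
      rw [Q.sxi, map_neg, neg_mul] at h
      exact h.symm,
    fun m' => eq_neg_of_add_eq_zero_left (R.r1_r1 m m'),
    fun q => by
      have h := R.lw_r1 (Q.P q) (ExteriorAlgebra.ι B m)
      rw [Q.sP] at h
      exact h.symm⟩

/-- The odd elements anticommute. -/
theorem IsO.anti_aT (U U' : Matrix I I B) {x : E} (hx : R.IsO x) (i j : I) :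
    x * R.aT U U' i j = -(R.aT U U' i j * x) := by
  have h1 : ∀ (M : Matrix I I E) (k l : I), (∀ k l, x * M k l = -(M k l * x)) →
      x * (R.roM U' * M) k l = -((R.roM U' * M) k l * x) := by
    intro M k l hM
    rw [Matrix.mul_apply, Finset.mul_sum, Finset.sum_mul, ← Finset.sum_neg_distrib]
    refine Finset.sum_congr rfl fun a _ => ?_
    rw [roM_apply, ← mul_assoc, hx.ro, mul_assoc, hM, mul_neg, mul_assoc]
  have h2 : ∀ (M : Matrix I I E) (k l : I), (∀ k l, x * M k l = -(M k l * x)) →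
      x * (M * R.roM U) k l = -((M * R.roM U) k l * x) := by
    intro M k l hM
    rw [Matrix.mul_apply, Finset.mul_sum, Finset.sum_mul, ← Finset.sum_neg_distrib]
    refine Finset.sum_congr rfl fun a _ => ?_
    rw [roM_apply, ← mul_assoc, hM, neg_mul, mul_assoc, hx.ro, mul_assoc]
  rw [aT, Matrix.add_apply, mul_add, add_mul, neg_add]
  congr 1
  · exact h2 _ _ _ fun k l => h1 _ _ _ fun k l => hx.th k l
  · exact h1 _ _ _ fun k l => hx.r1 _

theorem IsO.of_aT (U U' : Matrix I I B) (i j : I) : R.IsO (R.aT U U' i j) := by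
  rw [aT, Matrix.add_apply]
  refine IsO.add ?_ ?_
  · rw [Matrix.mul_apply]
    refine IsO.sum fun k _ => ?_
    refine IsO.mul_ro ?_ _
    rw [Matrix.mul_apply]
    exact IsO.sum fun l _ => (IsO.of_th l k).ro_mul _
  · rw [Matrix.mul_apply]
    exact IsO.sum fun k _ => (IsO.of_r1 _).ro_mul _

theorem aT_aT (U U' : Matrix I I B) (i j k l : I) :
    R.aT U U' i j * R.aT U U' k l + R.aT U U' k l * R.aT U U' i j = 0 := by
  rw [(IsO.of_aT U U' i j).anti_aT U U' k l, neg_add_cancel]

theorem aT_xi (U U' : Matrix I I B) (i j : I) (k : Fin n) :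
    R.aT U U' i j * R.lw (Q.xi k) + R.lw (Q.xi k) * R.aT U U' i j = 0 := by
  rw [(IsO.of_xi k).anti_aT U U' i j, add_neg_cancel]

end Rp

end

end Vale.Agent.P286.H374.Gau
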