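import Vale.Agent.P286.H374.GauB

/-!
# The gauge transformation of the Weil algebra
-/

namespace Vale.Agent.P286.H374.Gau

open TensorProduct H710 Matrix

noncomputable section

set_option linter.unusedSectionVars false

variable {I : Type} [Fintype I] [DecidableEq I] {n : ℕ} {y : Fin n → MvPolynomial (I × I) ℂ}
variable {W : Type} [Ring W] [Algebra ℂ W]

/-- Invariance of a polynomial under conjugation, over all commutative algebras. -/
def Invt (p : MvPolynomial (I × I) ℂ) : Prop :=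
  ∀ (C : Type) [CommRing C] [Algebra ℂ C] (U U' M : Matrix I I C), U * U' = 1 →
    MvPolynomial.aeval (fun a : I × I => (U' * M * U) a.1 a.2) p =
      MvPolynomial.aeval (fun a : I × I => M a.1 a.2) p

namespace WD

variable (Q : WD I n y W)

theorem d_one : Q.d 1 = 0 := by
  have h := Q.dm 1 1
  have hs : Q.s 1 = 1 := map_one Q.s
  rw [mul_one, mul_one, hs, one_mul] at h
  exact left_eq_add.1 h

theorem d_alg (c : ℂ) : Q.d (algebraMap ℂ W c) = 0 := by
  rw [Algebra.algebraMap_eq_smul_one, map_smul, Q.d_one, smul_zero]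

/-- Extensionality. -/
theorem hom_ext {E : Type} [Ring E] [Algebra ℂ E] {a b : W →ₐ[ℂ] E}
    (h1 : ∀ i j, a (Q.th i j) = b (Q.th i j)) (h2 : ∀ i, a (Q.xi i) = b (Q.xi i))
    (h3 : ∀ i j, a (Q.P (MvPolynomial.X (i, j))) = b (Q.P (MvPolynomial.X (i, j)))) : a = b := by
  have h4 : a.comp Q.P = b.comp Q.P := MvPolynomial.algHom_ext fun x => h3 x.1 x.2
  have h := Q.gen (AlgHom.equalizer a b) h1 h2 fun q => AlgHom.congr_fun h4 q
  apply AlgHom.ext
  intro w
  have hw : w ∈ AlgHom.equalizer a b := by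
    rw [h]
    trivial
  exact hw

/-- The induction principle. -/
theorem ind (p : W → Prop) (h1 : ∀ i j, p (Q.th i j)) (h2 : ∀ i, p (Q.xi i))
    (h3 : ∀ i j, p (Q.P (MvPolynomial.X (i, j)))) (hc : ∀ c : ℂ, p (algebraMap ℂ W c))
    (ha : ∀ a b, p a → p b → p (a + b)) (hm : ∀ a b, p a → p b → p (a * b)) (w : W) : p w := by
  let S : Subalgebra ℂ W :=
    { carrier := {w | p w}
      mul_mem' := fun h h' => hm _ _ h h'
      add_mem' := fun h h' => ha _ _ h h'
      algebraMap_mem' := hc }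
  have h3' : ∀ q, Q.P q ∈ S := by
    intro q
    induction q using MvPolynomial.induction_on with
    | C c =>
      have : Q.P (MvPolynomial.C c) = algebraMap ℂ W c := Q.P.commutes c
      rw [this]
      exact hc c
    | add q q' hq hq' => rw [map_add]; exact ha _ _ hq hq'
    | mul_X q x hq => rw [map_mul]; exact hm _ _ hq (h3 x.1 x.2)
  have h := Q.gen S h1 h2 h3'
  have hw : w ∈ S := by
    rw [h]
    trivial
  exact hw

end WD

namespace Rp

variable {Q : WD I n y W} {B : Type} [CommRing B] [Algebra ℂ B] {E : Type} [Ring E] [Algebra ℂ E]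
variable (R : Rp Q B E)

/-- The commutative algebra of the polynomials in `F` with coefficients in `B`, acting on `E`. -/
def act : B ⊗[ℂ] MvPolynomial (I × I) ℂ →ₐ[ℂ] E :=
  Algebra.TensorProduct.lift R.ro (R.lw.comp Q.P) fun b q => R.ro_lw b (Q.P q)

theorem act_tmul (b : B) (q : MvPolynomial (I × I) ℂ) :
    R.act (b ⊗ₜ q) = R.ro b * R.lw (Q.P q) := Algebra.TensorProduct.lift_tmul _ _ _ _ _

/-- The inclusion of `B`. -/
abbrev iB (I B : Type) [CommRing B] [Algebra ℂ B] : B →ₐ[ℂ] B ⊗[ℂ] MvPolynomial (I × I) ℂ :=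
  Algebra.TensorProduct.includeLeft

/-- The inclusion of the polynomials. -/
abbrev iP (I B : Type) [CommRing B] [Algebra ℂ B] :
    MvPolynomial (I × I) ℂ →ₐ[ℂ] B ⊗[ℂ] MvPolynomial (I × I) ℂ :=
  Algebra.TensorProduct.includeRight

theorem act_iB (b : B) : R.act (iB I B b) = R.ro b := by
  change R.act (b ⊗ₜ 1) = _
  rw [act_tmul, map_one, map_one, mul_one]

theorem act_iP (q : MvPolynomial (I × I) ℂ) : R.act (iP I B q) = R.lw (Q.P q) := by
  change R.act (1 ⊗ₜ q) = _
  rw [act_tmul, map_one, one_mul]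

/-- The generic matrix. -/
def gX (I B : Type) [CommRing B] [Algebra ℂ B] : Matrix I I (B ⊗[ℂ] MvPolynomial (I × I) ℂ) :=
  Matrix.of fun i j => iP I B (MvPolynomial.X (i, j))

/-- The homomorphism `F ↦ U⁻¹ F U`. -/
def cj (U U' : Matrix I I B) : MvPolynomial (I × I) ℂ →ₐ[ℂ] B ⊗[ℂ] MvPolynomial (I × I) ℂ :=
  MvPolynomial.aeval fun a => (U'.map (iB I B) * gX I B * U.map (iB I B)) a.1 a.2

/-- The homomorphism `F ↦ U⁻¹ F U`, as operators. -/
def fH (U U' : Matrix I I B) : MvPolynomial (I × I) ℂ →ₐ[ℂ] E := R.act.comp (cj U U')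

theorem map_act_iB (U : Matrix I I B) : (U.map (iB I B)).map R.act = R.roM U := by
  ext1 i j
  exact R.act_iB _

theorem map_act_gX : (gX I B).map R.act = R.lwM Q.Fm := by
  ext1 i j
  exact R.act_iP _

theorem fH_X (U U' : Matrix I I B) (i j : I) :
    R.fH U U' (MvPolynomial.X (i, j)) = R.aF U U' i j := by
  have h : (U'.map (iB I B) * gX I B * U.map (iB I B)).map R.act = R.aF U U' := by
    rw [Matrix.map_mul, Matrix.map_mul, map_act_iB, map_act_iB, map_act_gX]
    rfl
  rw [← h, fH, AlgHom.comp_apply, cj, MvPolynomial.aeval_X, Matrix.map_apply]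

theorem fH_inv {U U' : Matrix I I B} (h : U * U' = 1) {p : MvPolynomial (I × I) ℂ}
    (hp : Invt p) : R.fH U U' p = R.lw (Q.P p) := by
  have h1 : U.map (iB I B) * U'.map (iB I B) = 1 := by
    rw [← Matrix.map_mul, h]
    exact Matrix.map_one _ (map_zero _) (map_one _)
  have h2 := hp (B ⊗[ℂ] MvPolynomial (I × I) ℂ) (U.map (iB I B)) (U'.map (iB I B)) (gX I B) h1
  have h3 : (MvPolynomial.aeval fun a : I × I => gX I B a.1 a.2) = iP I B := by
    apply MvPolynomial.algHom_ext
    intro a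
    rw [MvPolynomial.aeval_X]
    rfl
  rw [h3] at h2
  rw [fH, AlgHom.comp_apply, cj, h2, act_iP]

theorem act_comm {x : E} (h1 : ∀ b, x * R.ro b = R.ro b * x)
    (h2 : ∀ q, x * R.lw (Q.P q) = R.lw (Q.P q) * x) (z : B ⊗[ℂ] MvPolynomial (I × I) ℂ) :
    R.act z * x = x * R.act z := by
  induction z using TensorProduct.induction_on with
  | zero => rw [map_zero, zero_mul, mul_zero]
  | tmul b q => rw [act_tmul, mul_assoc, ← h2, ← mul_assoc, ← h1, mul_assoc]
  | add a b ha hb => rw [map_add, add_mul, mul_add, ha, hb]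

variable (U U' : Matrix I I B)

theorem exists_aU : ∃ a : W →ₐ[ℂ] E, (∀ i j, a (Q.th i j) = R.aT U U' i j) ∧
    (∀ i, a (Q.xi i) = R.lw (Q.xi i)) ∧ ∀ p, a (Q.P p) = R.fH U U' p :=
  Q.lift (R.aT U U') (fun i => R.lw (Q.xi i)) (R.fH U U') (fun i j k l => aT_aT U U' i j k l)
    (fun i j k => aT_xi U U' i j k)
    (fun i j => by rw [← map_mul, ← map_mul, ← map_add, Q.xixi, map_zero])
    (fun p i j => R.act_comm (IsO.of_aT U U' i j).ro (IsO.of_aT U U' i j).P _)
    (fun p i => R.act_comm (IsO.of_xi i).ro (IsO.of_xi i).P _)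

/-- **The gauge transformation** `Θ ↦ U⁻¹ Θ U + U⁻¹ dU`, `F ↦ U⁻¹ F U`, `ξ ↦ ξ`. -/
def aU : W →ₐ[ℂ] E := (R.exists_aU U U').choose

theorem aU_th (i j : I) : R.aU U U' (Q.th i j) = R.aT U U' i j :=
  (R.exists_aU U U').choose_spec.1 i j

theorem aU_xi (i : Fin n) : R.aU U U' (Q.xi i) = R.lw (Q.xi i) :=
  (R.exists_aU U U').choose_spec.2.1 i

theorem aU_P (p : MvPolynomial (I × I) ℂ) : R.aU U U' (Q.P p) = R.fH U U' p :=
  (R.exists_aU U U').choose_spec.2.2 p

theorem aU_F (i j : I) : R.aU U U' (Q.P (MvPolynomial.X (i, j))) = R.aF U U' i j := by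
  rw [aU_P, fH_X]

theorem aU_inv {U U' : Matrix I I B} (h : U * U' = 1) {p : MvPolynomial (I × I) ℂ}
    (hp : Invt p) : R.aU U U' (Q.P p) = R.lw (Q.P p) := by
  rw [aU_P, R.fH_inv h hp]

theorem aU_one : R.aU 1 1 = R.lw := by
  apply Q.hom_ext
  · intro i j
    rw [aU_th, aT, roM_one, deM_one, mul_one, one_mul, mul_zero, add_zero]
    rfl
  · intro i
    exact R.aU_xi 1 1 i
  · intro i j
    rw [aU_F, aF, roM_one, mul_one, one_mul]
    rfl

/-- The gauge transform commutes with the functions. -/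
theorem aU_ro (w : W) (b : B) : R.aU U U' w * R.ro b = R.ro b * R.aU U U' w := by
  induction w using Q.ind with
  | h1 i j => rw [aU_th]; exact (IsO.of_aT U U' i j).ro b
  | h2 i => rw [aU_xi]; exact (IsO.of_xi i).ro b
  | h3 i j =>
    rw [aU_P]
    exact R.act_comm (fun c => ro_ro R b c) (fun q => R.ro_lw b _) _
  | hc c => rw [AlgHom.commutes]; exact Algebra.commutes c _
  | ha a b ha hb => rw [map_add, add_mul, mul_add, ha, hb]
  | hm a b ha hb => rw [map_mul, mul_assoc, hb, ← mul_assoc, ha, mul_assoc]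

/-- The gauge transform commutes with the one-forms, up to sign. -/
theorem aU_r1 (w : W) (m : Ω[B⁄ℂ]) : R.r1 (ExteriorAlgebra.ι B m) * R.aU U U' w =
    R.aU U U' (Q.s w) * R.r1 (ExteriorAlgebra.ι B m) := by
  induction w using Q.ind with
  | h1 i j =>
    rw [Q.sth, map_neg, neg_mul, aU_th, (IsO.of_aT U U' i j).r1, neg_neg]
  | h2 i => rw [Q.sxi, map_neg, neg_mul, aU_xi, (IsO.of_xi i).r1, neg_neg]
  | h3 i j =>
    rw [Q.sP, aU_P]
    refine (R.act_comm (fun c => (R.ro_r1 c _).symm) (fun q => ?_) _).symm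
    exact (IsO.of_r1 m).P q
  | hc c =>
    rw [AlgHom.commutes, AlgHom.commutes, AlgHom.commutes]
    exact (Algebra.commutes c _).symm
  | ha a b ha hb => rw [map_add, map_add, map_add, mul_add, add_mul, ha, hb]
  | hm a b ha hb => rw [map_mul, map_mul, map_mul, ← mul_assoc, ha, mul_assoc, hb, mul_assoc]

variable {U U'}

/-- **The gauge transform is compatible with the differential.** -/
theorem aU_D (hy : ∀ i, Invt (y i)) (h : U * U' = 1) (h' : U' * U = 1) (w : W) :
    R.D * R.aU U U' w = R.aU U U' (Q.d w) + R.aU U U' (Q.s w) * R.D := by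
  induction w using Q.ind with
  | h1 i j =>
    have h1 := congrFun (congrFun (R.DM_aT h h') i) j
    rw [DM_mul, Matrix.sub_apply, mul_DM, Matrix.sub_apply] at h1
    rw [Q.sth, map_neg, neg_mul, aU_th, h1, Q.dth, map_sub, aU_F, sub_eq_add_neg]
    congr 2
    rw [Matrix.mul_apply, Matrix.mul_apply, map_sum]
    refine Finset.sum_congr rfl fun k _ => ?_
    rw [map_mul, aU_th, aU_th]
  | h2 i => rw [Q.sxi, Q.dxi, R.aU_inv h (hy i), map_neg, neg_mul, aU_xi, R.D_lw, Q.sxi,
      map_neg, neg_mul, Q.dxi]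
  | h3 i j =>
    have h1 := congrFun (congrFun (R.DM_aF h h') i) j
    rw [DM_mul, Matrix.add_apply, mul_DM, Matrix.sub_apply] at h1
    rw [Q.sP, aU_F, h1, Q.dF, map_sum]
    congr 1
    rw [Matrix.mul_apply, Matrix.mul_apply, ← Finset.sum_sub_distrib]
    refine Finset.sum_congr rfl fun k _ => ?_
    rw [map_sub, map_mul, map_mul, aU_th, aU_th, aU_F, aU_F]
  | hc c =>
    rw [Q.d_alg, map_zero, zero_add, AlgHom.commutes, AlgHom.commutes, AlgHom.commutes]
    exact (Algebra.commutes c _).symm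
  | ha a b ha hb =>
    rw [map_add, map_add, map_add, map_add, map_add, mul_add, add_mul, ha, hb]
    abel
  | hm a b ha hb =>
    have h3 : R.aU U U' (Q.d (a * b)) = R.aU U U' (Q.d a) * R.aU U U' b +
        R.aU U U' (Q.s a) * R.aU U U' (Q.d b) := by
      rw [Q.dm, map_add, map_mul, map_mul]
    have h4 : R.aU U U' (Q.s (a * b)) = R.aU U U' (Q.s a) * R.aU U U' (Q.s b) := by
      rw [map_mul, map_mul]
    rw [map_mul, h3, h4, ← mul_assoc, ha, add_mul, mul_assoc (R.aU U U' (Q.s a)) R.D, hb, mul_add,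
      mul_assoc (R.aU U U' (Q.s a)), add_assoc]

end Rp

end

end Vale.Agent.P286.H374.Gau
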