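import Vale.Agent.P286.H374.GauA
import Vale.Agent.P286.H374.GauC

/-!
# The transition maps of `W ⊗ V`
-/

namespace Vale.Agent.P286.H374.Gau

open TensorProduct H710 Matrix

noncomputable section

set_option linter.unusedSectionVars false

variable {I : Type} [Fintype I] [DecidableEq I] {n : ℕ} {y : Fin n → MvPolynomial (I × I) ℂ}
variable {W : Type} [Ring W] [Algebra ℂ W] (Q : WD I n y W)

section Rep

variable (B : Type) [CommRing B] [Algebra ℂ B]
variable {V : Type} [AddCommGroup V] [Module ℂ V] [Module (Om ℂ B) V] [IsScalarTower ℂ (Om ℂ B) V]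

/-- The operators on `W ⊗ V`. -/
def rp (dV : V →ₗ[ℂ] V)
    (hV : ∀ (w : Om ℂ B) (x : V), dV (w • x) = Om.d w • x + Om.sg w • dV x) :
    Rp Q B (Module.End ℂ (W ⊗[ℂ] V)) where
  lw := lwH W V
  ro := roH B W V
  r1 := { toFun := fun w => r1 Q.s V w, map_zero' := r1_zero Q.s, map_add' := r1_add Q.s }
  r1_smul := r1_smul Q.s
  ro_lw := ro_lw
  ro_r1 := ro_r1 Q.s
  lw_r1 := lw_r1 Q.s
  r1_r1 := r1_r1 Q.s Q.ss
  D := dt Q.s Q.d dV
  D_lw := dt_lw Q.dm
  D_ro := dt_ro hV
  D_r1 := dt_r1 Q.ss Q.sd hV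

end Rep

section Rel

variable {X X' : Type} [AddCommGroup X] [Module ℂ X] [AddCommGroup X'] [Module ℂ X']

/-- The map `G` intertwines the operators `e` and `e'`. -/
def Rel (G : X →ₗ[ℂ] X') (e : Module.End ℂ X) (e' : Module.End ℂ X') : Prop :=
  ∀ z, G (e z) = e' (G z)

variable {G : X →ₗ[ℂ] X'}

theorem Rel.add {e f : Module.End ℂ X} {e' f' : Module.End ℂ X'} (h : Rel G e e')
    (h' : Rel G f f') : Rel G (e + f) (e' + f') := fun z => by
  rw [LinearMap.add_apply, LinearMap.add_apply, map_add, h, h']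

theorem Rel.mul {e f : Module.End ℂ X} {e' f' : Module.End ℂ X'} (h : Rel G e e')
    (h' : Rel G f f') : Rel G (e * f) (e' * f') := fun z => by
  rw [Module.End.mul_apply, Module.End.mul_apply, h, h']

theorem Rel.zero : Rel G 0 0 := fun z => by
  rw [LinearMap.zero_apply, LinearMap.zero_apply, map_zero]

theorem Rel.sum {J : Type} {t : Finset J} {e : J → Module.End ℂ X} {e' : J → Module.End ℂ X'}
    (h : ∀ k ∈ t, Rel G (e k) (e' k)) : Rel G (∑ k ∈ t, e k) (∑ k ∈ t, e' k) := by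
  classical
  induction t using Finset.induction_on with
  | empty => exact Rel.zero
  | insert a t ha ih =>
    rw [Finset.sum_insert ha, Finset.sum_insert ha]
    exact (h a (Finset.mem_insert_self _ _)).add
      (ih fun k hk => h k (Finset.mem_insert_of_mem hk))

/-- Matrices of intertwined operators. -/
def RelM (G : X →ₗ[ℂ] X') (M : Matrix I I (Module.End ℂ X)) (M' : Matrix I I (Module.End ℂ X')) :
    Prop := ∀ i j, Rel G (M i j) (M' i j)

theorem RelM.add {M N : Matrix I I (Module.End ℂ X)} {M' N' : Matrix I I (Module.End ℂ X')}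
    (h : RelM G M M') (h' : RelM G N N') : RelM G (M + N) (M' + N') := fun i j => by
  rw [Matrix.add_apply, Matrix.add_apply]
  exact (h i j).add (h' i j)

theorem RelM.mul {M N : Matrix I I (Module.End ℂ X)} {M' N' : Matrix I I (Module.End ℂ X')}
    (h : RelM G M M') (h' : RelM G N N') : RelM G (M * N) (M' * N') := fun i j => by
  rw [Matrix.mul_apply, Matrix.mul_apply]
  exact Rel.sum fun k _ => (h i k).mul (h' k j)

variable {Q}
variable {B : Type} [CommRing B] [Algebra ℂ B] {B' : Type} [CommRing B'] [Algebra ℂ B']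

/-- The composition of gauge transformations. -/
theorem rel_aU (R : Rp Q B (Module.End ℂ X)) (R' : Rp Q B' (Module.End ℂ X')) (f : B →ₐ[ℂ] B')
    (U U' : Matrix I I B) {V V' : Matrix I I B'} (hV : V' * V = 1)
    (hro : ∀ b, Rel G (R.ro b) (R'.ro (f b)))
    (hr1 : ∀ b, Rel G (R.r1 (Om.dd b)) (R'.r1 (Om.dd (f b))))
    (hlw : ∀ w, Rel G (R.lw w) (R'.aU V V' w)) (w : W) :
    Rel G (R.aU U U' w) (R'.aU (V * U.map f) (U'.map f * V') w) := by
  have h1 : R'.roM V' * R'.roM V = 1 := R'.ro_uv hV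
  have ho : ∀ M : Matrix I I B, RelM G (R.roM M) (R'.roM (M.map f)) := fun M i j => hro _
  have hd : ∀ M : Matrix I I B, RelM G (R.deM M) (R'.deM (M.map f)) := fun M i j => hr1 _
  have hT : RelM G (R.aT U U') (R'.aT (V * U.map f) (U'.map f * V')) := by
    have h2 : R'.aT (V * U.map f) (U'.map f * V') = R'.roM (U'.map f) * R'.aT V V' *
        R'.roM (U.map f) + R'.roM (U'.map f) * R'.deM (U.map f) := by
      rw [Rp.aT, Rp.aT, R'.deM_mul, R'.roM_mul, R'.roM_mul, mul_add, mul_add, add_mul]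
      have h3 : R'.roM (U'.map f) * R'.roM V' * (R'.roM V * R'.deM (U.map f)) =
          R'.roM (U'.map f) * R'.deM (U.map f) := by
        rw [mul_assoc, ← mul_assoc (R'.roM V'), h1, one_mul]
      rw [h3]
      noncomm_ring
    rw [h2, Rp.aT]
    refine RelM.add (RelM.mul (RelM.mul (ho _) ?_) (ho _)) (RelM.mul (ho _) (hd _))
    intro i j
    rw [← R'.aU_th]
    exact hlw _
  have hF : RelM G (R.aF U U') (R'.aF (V * U.map f) (U'.map f * V')) := by
    have h2 : R'.aF (V * U.map f) (U'.map f * V') = R'.roM (U'.map f) * R'.aF V V' *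
        R'.roM (U.map f) := by
      rw [Rp.aF, Rp.aF, R'.roM_mul, R'.roM_mul]
      noncomm_ring
    rw [h2, Rp.aF]
    refine RelM.mul (RelM.mul (ho _) ?_) (ho _)
    intro i j
    rw [← R'.aU_F]
    exact hlw _
  induction w using Q.ind with
  | h1 i j => rw [R.aU_th, R'.aU_th]; exact hT i j
  | h2 i => rw [R.aU_xi, R'.aU_xi, ← R'.aU_xi V V']; exact hlw _
  | h3 i j => rw [R.aU_F, R'.aU_F]; exact hF i j
  | hc c =>
    rw [AlgHom.commutes, AlgHom.commutes]
    intro z
    rw [Module.algebraMap_end_apply, Module.algebraMap_end_apply, map_smul]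
  | ha a b ha hb => rw [map_add, map_add]; exact ha.add hb
  | hm a b ha hb => rw [map_mul, map_mul]; exact ha.mul hb

end Rel

section Gmap

variable {B : Type} [CommRing B] [Algebra ℂ B] {B' : Type} [CommRing B'] [Algebra ℂ B']
variable {V : Type} [AddCommGroup V] [Module ℂ V] [Module (Om ℂ B) V] [IsScalarTower ℂ (Om ℂ B) V]
variable {V' : Type} [AddCommGroup V'] [Module ℂ V'] [Module (Om ℂ B') V']
  [IsScalarTower ℂ (Om ℂ B') V']

/-- The map `w ⊗ x ↦ a w (1 ⊗ t x)`. -/
def gm {V V' : Type} [AddCommGroup V] [Module ℂ V] [AddCommGroup V'] [Module ℂ V']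
    (a : W →ₐ[ℂ] Module.End ℂ (W ⊗[ℂ] V')) (t : V →ₗ[ℂ] V') : W ⊗[ℂ] V →ₗ[ℂ] W ⊗[ℂ] V' :=
  TensorProduct.lift
    ((LinearMap.lcomp ℂ _ ((TensorProduct.mk ℂ W V' 1).comp t)).comp a.toLinearMap)

theorem gm_tmul (a : W →ₐ[ℂ] Module.End ℂ (W ⊗[ℂ] V')) (t : V →ₗ[ℂ] V') (w : W) (x : V) :
    gm a t (w ⊗ₜ x) = a w (1 ⊗ₜ t x) := rfl

theorem gm_one_tmul (a : W →ₐ[ℂ] Module.End ℂ (W ⊗[ℂ] V')) (t : V →ₗ[ℂ] V') (x : V) :
    gm a t (1 ⊗ₜ x) = 1 ⊗ₜ t x := by
  rw [gm_tmul, map_one]
  rfl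

/-- The map `G` intertwines the left multiplications and the gauge transform. -/
theorem gm_lw (a : W →ₐ[ℂ] Module.End ℂ (W ⊗[ℂ] V')) (t : V →ₗ[ℂ] V') (w : W) :
    Rel (gm a t) (lw V w) (a w) := fun z => by
  induction z using TensorProduct.induction_on with
  | zero => rw [map_zero, map_zero, map_zero]
  | tmul w' x => rw [lw_tmul, gm_tmul, gm_tmul, map_mul, Module.End.mul_apply]
  | add a b ha hb => rw [map_add, map_add, map_add, map_add, ha, hb]

end Gmap

end

end Vale.Agent.P286.H374.Gau
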