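import Vale.Agent.P286.H374.GauH

/-!
# Naturality of the gauge transition maps in the algebra and in the module
-/

namespace Vale.Agent.P286.H374.Gau

open TensorProduct H710 Matrix H697 H847 SGD

noncomputable section

set_option linter.unusedSectionVars false

variable {I : Type} [Fintype I] [DecidableEq I] {n n' : ℕ} {y : Fin n → MvPolynomial (I × I) ℂ}
  {y' : Fin n' → MvPolynomial (I × I) ℂ}
variable {W : Type} [Ring W] [Algebra ℂ W] {Q : WD I n y W}
variable {W' : Type} [Ring W'] [Algebra ℂ W'] {Q' : WD I n' y' W'}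
variable {B : Type} [CommRing B] [Algebra ℂ B]

section Op

variable {X X' : Type} [AddCommGroup X] [Module ℂ X] [AddCommGroup X'] [Module ℂ X']
variable {T : X →ₗ[ℂ] X'}

theorem Rel.smul {e : Module.End ℂ X} {e' : Module.End ℂ X'} (c : ℂ) (h : Rel T e e') :
    Rel T (c • e) (c • e') := fun z => by
  rw [LinearMap.smul_apply, LinearMap.smul_apply, map_smul, h]

/-- The gauge transformations are natural, up to a sign. -/
theorem rel_aU_nat (R : Rp Q B (Module.End ℂ X)) (R' : Rp Q' B (Module.End ℂ X')) (u : W →ₐ[ℂ] W')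
    (c : ℂ) (U U' : Matrix I I B) (hth : ∀ i j, u (Q.th i j) = c • Q'.th i j)
    (hP : ∀ p, u (Q.P p) = Q'.P p)
    (hxi : ∀ i, R'.aU U U' (u (Q.xi i)) = R'.lw (u (Q.xi i)))
    (hlw : ∀ w, Rel T (R.lw w) (R'.lw (u w)))
    (hro : ∀ b, Rel T (R.ro b) (R'.ro b))
    (hr1 : ∀ b, Rel T (R.r1 (Om.dd b)) (c • R'.r1 (Om.dd b))) (w : W) :
    Rel T (R.aU U U' w) (R'.aU U U' (u w)) := by
  have ho : ∀ M : Matrix I I B, RelM T (R.roM M) (R'.roM M) := fun M i j => hro _
  have hd : ∀ M : Matrix I I B, RelM T (R.deM M) (c • R'.deM M) := fun M i j => hr1 _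
  have hT : RelM T (R.aT U U') (c • R'.aT U U') := by
    have h2 : c • R'.aT U U' = R'.roM U' * (c • R'.lwM Q'.th) * R'.roM U +
        R'.roM U' * (c • R'.deM U) := by
      rw [Rp.aT, smul_add, mul_smul_comm, smul_mul_assoc, mul_smul_comm]
    rw [h2, Rp.aT]
    refine RelM.add (RelM.mul (RelM.mul (ho _) ?_) (ho _)) (RelM.mul (ho _) (hd _))
    intro i j
    have h3 := hlw (Q.th i j)
    rw [hth, map_smul] at h3
    exact h3
  have hF : RelM T (R.aF U U') (R'.aF U U') := by
    refine RelM.mul (RelM.mul (ho _) ?_) (ho _)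
    intro i j
    have h3 := hlw (Q.P (MvPolynomial.X (i, j)))
    rw [hP] at h3
    exact h3
  induction w using Q.ind with
  | h1 i j => rw [R.aU_th, hth, map_smul, R'.aU_th]; exact hT i j
  | h2 i => rw [R.aU_xi, hxi]; exact hlw _
  | h3 i j => rw [R.aU_F, hP, R'.aU_F]; exact hF i j
  | hc c =>
    rw [AlgHom.commutes, AlgHom.commutes, AlgHom.commutes]
    intro z
    rw [Module.algebraMap_end_apply, Module.algebraMap_end_apply, map_smul]
  | ha a b ha hb => rw [map_add, map_add, map_add]; exact ha.add hb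
  | hm a b ha hb => rw [map_mul, map_mul, map_mul]; exact ha.mul hb

end Op

section Nat

variable {B' : Type} [CommRing B'] [Algebra ℂ B']
variable {M M1 : OmM B} {M' M1' : OmM B'}

/-- **Naturality of the transition maps**, for `u ⊗ z` where `u` is a homomorphism of algebras
which multiplies the matrix `θ` by `c` and `z (η x) = c η z (x)` for the one-forms `η`. -/
theorem G_nat (u : W →ₐ[ℂ] W') (c : ℂ) (U U' : Matrix I I B')
    (hth : ∀ i j, u (Q.th i j) = c • Q'.th i j) (hP : ∀ p, u (Q.P p) = Q'.P p)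
    (hxi : ∀ i, (rM Q' M1').aU U U' (u (Q.xi i)) = (rM Q' M1').lw (u (Q.xi i)))
    (hus : ∀ w, u (Q.s w) = Q'.s (u w))
    (z : M.M.V →ₗ[ℂ] M1.M.V) (z' : M'.M.V →ₗ[ℂ] M1'.M.V)
    (hz0 : ∀ (b : B') x, z' (algebraMap B' (Om ℂ B') b • x) = algebraMap B' (Om ℂ B') b • z' x)
    (hz1 : ∀ (b : B') x, z' ((Om.dd b : Om ℂ B') • x) = c • ((Om.dd b : Om ℂ B') • z' x))
    (t : M.M.V →ₗ[ℂ] M'.M.V) (t1 : M1.M.V →ₗ[ℂ] M1'.M.V) (hzt : ∀ x, z' (t x) = t1 (z x))
    (v : W ⊗[ℂ] M.M.V) :
    TensorProduct.map u.toLinearMap z' (G Q M M' t U U' v) =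
      G Q' M1 M1' t1 U U' (TensorProduct.map u.toLinearMap z v) := by
  have key : ∀ w, Rel (TensorProduct.map u.toLinearMap z') ((rM Q M').aU U U' w)
      ((rM Q' M1').aU U U' (u w)) := by
    refine rel_aU_nat (rM Q M') (rM Q' M1') u c U U' hth hP hxi ?_ ?_ ?_
    · intro w a
      induction a using TensorProduct.induction_on with
      | zero => rw [map_zero, map_zero, map_zero]
      | tmul a x =>
        change u (w * a) ⊗ₜ z' x = (u w * u a) ⊗ₜ z' x
        rw [map_mul]
      | add a b ha hb => rw [map_add, map_add, map_add, map_add, ha, hb]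
    · intro b a
      induction a using TensorProduct.induction_on with
      | zero => rw [map_zero, map_zero, map_zero]
      | tmul a x =>
        change u a ⊗ₜ z' (algebraMap B' (Om ℂ B') b • x) =
          u a ⊗ₜ (algebraMap B' (Om ℂ B') b • z' x)
        rw [hz0]
      | add a b ha hb => rw [map_add, map_add, map_add, map_add, ha, hb]
    · intro b a
      induction a using TensorProduct.induction_on with
      | zero => rw [map_zero, map_zero, map_zero]
      | tmul a x =>
        change u (Q.s a) ⊗ₜ[ℂ] z' ((Om.dd b : Om ℂ B') • x) =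
          c • (Q'.s (u a) ⊗ₜ[ℂ] ((Om.dd b : Om ℂ B') • z' x))
        rw [hz1, hus, TensorProduct.tmul_smul]
      | add a b ha hb => rw [map_add, map_add, map_add, map_add, ha, hb]
  induction v using TensorProduct.induction_on with
  | zero => rw [map_zero, map_zero, map_zero, map_zero]
  | tmul w x =>
    rw [G_tmul, key w, TensorProduct.map_tmul, TensorProduct.map_tmul, G_tmul]
    change (rM Q' M1').aU U U' (u w) (u 1 ⊗ₜ z' (t x)) = _
    rw [map_one, hzt]
    rfl
  | add a b ha hb => rw [map_add, map_add, map_add, map_add, ha, hb]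

end Nat

end

end Vale.Agent.P286.H374.Gau
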